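import Vale.Agent.P128.Connected.Separating.Interface
import Vale.Agent.P128.Islands.Tools

/-!
# Components of the complement with constant gradient

Where the gradient is constant, every point of the singular set touches a second component
(otherwise a part of the singular set could be erased for free), so the component is invariant
under translations along the gradient: it is a half plane or a strip. A half plane contradicts the
density bound; in a strip a long rectangle with constant value is cheaper. Hence the gradient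
vanishes.
-/

namespace Vale.Agent.P128.Connected

open MeasureTheory Filter Metric Set Islands
open scoped Topology ENNReal NNReal ContDiff

variable {u : ℂ → ℝ} {K : Set ℂ} {q z : ℂ}

private lemma fderiv_dir (f : ℂ → ℝ) (x h : ℂ) : fderiv ℝ f x h = dot (grad f x) h := by
  conv_lhs => rw [show h = h.re • (1 : ℂ) + h.im • Complex.I by simp]
  rw [map_add, map_smul, map_smul]
  simp only [dot, smul_eq_mul, grad_re, grad_im]
  ring

private lemma affine_on (hu : Reg u K)
    (hq : ∀ y ∈ connectedComponentIn Kᶜ z, grad u y = q) :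
    ∃ c : ℝ, ∀ y ∈ connectedComponentIn Kᶜ z, u y = c + dot q y := by
  set ell : ℂ →L[ℝ] ℝ := q.re • Complex.reCLM + q.im • Complex.imCLM with hell
  have hd : ∀ y ∈ connectedComponentIn Kᶜ z, DifferentiableAt ℝ u y := fun y hy =>
    ((hu.smooth y (connectedComponentIn_subset _ _ hy)).contDiffAt
      (hu.isClosed.isOpen_compl.mem_nhds (connectedComponentIn_subset _ _ hy))).differentiableAt
        (by simp)
  obtain ⟨c, hc⟩ := (hu.isClosed.isOpen_compl.connectedComponentIn).exists_is_const_of_fderiv_eq_zero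
    isPreconnected_connectedComponentIn (f := fun y => u y - ell y)
    (fun y hy => ((hd y hy).sub ell.differentiableAt).differentiableWithinAt) fun y hy => by
      refine ContinuousLinearMap.ext fun h => ?_
      rw [fderiv_fun_sub (hd y hy) ell.differentiableAt, ell.fderiv]
      simp [fderiv_dir, hq y hy, hell, dot]
  refine ⟨c, fun y hy => ?_⟩
  have := hc y hy
  simp [hell, dot] at this ⊢
  linarith

private lemma mem_of_mem_closure (hK : IsClosed K) {y : ℂ}
    (hy : y ∈ closure (connectedComponentIn Kᶜ z)) (hyK : y ∉ K) :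
    y ∈ connectedComponentIn Kᶜ z := by
  obtain ⟨w, hw1, hw2⟩ := mem_closure_iff.1 hy _ hK.isOpen_compl.connectedComponentIn
    (mem_connectedComponentIn (F := Kᶜ) hyK)
  rw [connectedComponentIn_eq hw2, ← connectedComponentIn_eq hw1]
  exact mem_connectedComponentIn hyK

/-- Where the gradient is constant every point of `K` touches another component. -/
theorem removableGoal : RemovableGoal := by
  intro u K q z hu hred hz hq x hx r hr
  by_contra hcon
  push Not at hcon
  classical
  have hKo : IsOpen Kᶜ := hu.isClosed.isOpen_compl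
  obtain ⟨c, hc⟩ := affine_on hu hq
  set D := connectedComponentIn Kᶜ z with hD
  set B := ball x r with hB
  set ρ := ‖x‖ + r with hρ
  have hBρ : B ⊆ closedBall 0 ρ := ball_subset_closedBall.trans
    (closedBall_subset_closedBall' (by rw [dist_zero_right, hρ]; linarith))
  set δ : ℂ → ℝ := (K ∩ B).indicator fun y => c + dot q y - u y with hδ
  have hδ0 : ∀ y, y ∉ K → δ y = 0 := fun y hy => indicator_of_notMem (fun h => hy h.1) _
  have hδB : ∀ y ∈ B, u y + δ y = c + dot q y := by
    intro y hy
    by_cases hK : y ∈ K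
    · rw [hδ, indicator_of_mem (show y ∈ K ∩ B from ⟨hK, hy⟩)]
      ring
    · rw [hδ0 y hK, add_zero, hc y (hcon y hy hK)]
  have hgδ : grad δ =ᵐ[volume] (0 : ℂ → ℂ) := by
    filter_upwards [measure_eq_zero_iff_ae_notMem.1 hu.null] with y hy
    rw [grad_congr (g := fun _ => (0 : ℝ))]
    · simp [grad, Complex.ext_iff]
    · filter_upwards [hKo.mem_nhds hy] with w hw using hδ0 w hw
  have hmem : MemLp (grad δ) 2 := (memLp_congr_ae hgδ).2 MemLp.zero
  have hv : ContDiffOn ℝ ∞ (fun y => u y + δ y) (K \ B)ᶜ := by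
    intro y hy
    by_cases hyB : y ∈ B
    · refine ContDiffAt.contDiffWithinAt (ContDiffAt.congr_of_eventuallyEq ?_
        (eventually_of_mem (isOpen_ball.mem_nhds hyB) hδB))
      simp only [dot]
      exact contDiffAt_const.add ((contDiffAt_const.mul Complex.reCLM.contDiff.contDiffAt).add
        (contDiffAt_const.mul Complex.imCLM.contDiff.contDiffAt))
    · have hyK : y ∉ K := fun h => hy ⟨h, hyB⟩
      refine ContDiffAt.contDiffWithinAt (((hu.smooth y hyK).contDiffAt
        (hKo.mem_nhds hyK)).congr_of_eventuallyEq ?_)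
      filter_upwards [hKo.mem_nhds hyK] with w hw
      simp [hδ0 w hw]
  -- separation
  have key : ∀ a b, a ∉ K → a ∉ D → b ∈ connectedComponentIn (K \ B)ᶜ a →
      b ∈ connectedComponentIn Kᶜ a := by
    intro a b haK haD hb
    set A := connectedComponentIn Kᶜ a with hA
    have hsub : connectedComponentIn (K \ B)ᶜ a ⊆ A := by
      refine isPreconnected_connectedComponentIn.subset_left_of_subset_union
        hKo.connectedComponentIn ((hKo.inter isClosed_closure.isOpen_compl).union isOpen_ball)
        (v := (Kᶜ ∩ (closure A)ᶜ) ∪ B) ?_ ?_ ?_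
      · rw [disjoint_left]
        rintro w hw (⟨-, h⟩ | h)
        · exact h (subset_closure hw)
        · have hwK := connectedComponentIn_subset _ _ hw
          have h1 := connectedComponentIn_eq hw
          have h2 := connectedComponentIn_eq (hcon w h hwK)
          exact haD (by rw [hD, h2, ← h1]; exact mem_connectedComponentIn haK)
      · intro w hw
        have hwL := connectedComponentIn_subset _ _ hw
        by_cases hwB : w ∈ B
        · exact Or.inr (Or.inr hwB)
        have hwK : w ∉ K := fun h => hwL ⟨h, hwB⟩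
        by_cases hwA : w ∈ A
        · exact Or.inl hwA
        · exact Or.inr (Or.inl ⟨hwK, fun h => hwA (mem_of_mem_closure hu.isClosed h hwK)⟩)
      · exact ⟨a, mem_connectedComponentIn (fun h => haK h.1), mem_connectedComponentIn haK⟩
    exact hsub hb
  have hsep : KeepsSeparation K (K \ B) (ball 0 (ρ + 1)) := by
    intro a b ha hb hn hb'
    have haK : a ∉ K := fun h => ha (Or.inr h)
    have hbK : b ∉ K := fun h => hb (Or.inr h)
    by_cases haD : a ∈ D
    · by_cases hbD : b ∈ D
      · exact hn (by rw [← connectedComponentIn_eq haD]; exact hbD)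
      · have e := connectedComponentIn_eq hb'
        have ha' : a ∈ connectedComponentIn (K \ B)ᶜ b := by
          rw [← e]
          exact mem_connectedComponentIn (fun h => haK h.1)
        have := key b a hbK hbD ha'
        exact hn (by rw [← connectedComponentIn_eq this]; exact mem_connectedComponentIn hbK)
    · exact hn (key a b haK haD hb')
  have hfin := hu.length_ne_top (ρ + 1)
  set m : Measure ℂ := Measure.hausdorffMeasure 1 with hm
  have hsplit : K ∩ ball 0 (ρ + 1) = (K \ B) ∩ ball 0 (ρ + 1) ∪ K ∩ B := by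
    ext y
    constructor
    · rintro ⟨h1, h2⟩
      by_cases h : y ∈ B
      · exact Or.inr ⟨h1, h⟩
      · exact Or.inl ⟨⟨h1, h⟩, h2⟩
    · rintro (⟨h1, h2⟩ | ⟨h1, h2⟩)
      · exact ⟨h1.1, h2⟩
      · exact ⟨h1, closedBall_subset_ball (by linarith) (hBρ h2)⟩
  have hmK : m (K ∩ ball 0 (ρ + 1)) = m ((K \ B) ∩ ball 0 (ρ + 1)) + m (K ∩ B) := by
    rw [hsplit, measure_union (disjoint_sdiff_left.mono inter_subset_left inter_subset_right)
      (hu.isClosed.measurableSet.inter measurableSet_ball)]
  rw [hmK, ENNReal.add_ne_top] at hfin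
  have h := hu.vary (K \ B) δ ρ (hu.isClosed.sdiff isOpen_ball)
    (measure_mono_null sdiff_subset hu.null) hv
    (fun y hy => indicator_of_notMem (fun h => hy (hBρ h.2)) _) (by
      ext y
      exact ⟨fun h => ⟨h.1.1, h.2⟩, fun h => ⟨⟨h.1, fun h' => h.2 (hBρ h')⟩, h.2⟩⟩)
    hsep hfin.1 hmem
  have e1 : ∫ y, ‖grad δ y‖ ^ 2 = 0 :=
    integral_eq_zero_of_ae (hgδ.mono fun y hy => by simp [hy])
  have e2 : ∫ y, dot (grad u y) (grad δ y) = 0 :=
    integral_eq_zero_of_ae (hgδ.mono fun y hy => by simp [hy, dot])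
  rw [e1, e2, ← hm, hmK, ENNReal.toReal_add hfin.1 hfin.2] at h
  have : 0 < (m (K ∩ B)).toReal := ENNReal.toReal_pos (hred x hx r hr).ne' hfin.2
  linarith

/-- Test functions do not feel the boundary of the component along the gradient. -/
private lemma integral_dir_eq_zero (hu : Reg u K)
    (hq : ∀ y ∈ connectedComponentIn Kᶜ z, grad u y = q) {θ : ℂ → ℝ} (hθ : IsTest univ θ) :
    ∫ y in connectedComponentIn Kᶜ z, fderiv ℝ θ y q = 0 := by
  classical
  set D := connectedComponentIn Kᶜ z with hD
  have hKo : IsOpen Kᶜ := hu.isClosed.isOpen_compl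
  have hDo : IsOpen D := hKo.connectedComponentIn
  set φ : ℂ → ℝ := D.indicator θ with hφ
  have hloc : ∀ y ∉ K, (y ∈ D ∧ φ =ᶠ[𝓝 y] θ) ∨ (y ∉ D ∧ φ =ᶠ[𝓝 y] fun _ => 0) := by
    intro y hy
    by_cases hyD : y ∈ D
    · exact Or.inl ⟨hyD, eventually_of_mem (hDo.mem_nhds hyD) fun w hw => indicator_of_mem hw θ⟩
    · refine Or.inr ⟨hyD, eventually_of_mem (isClosed_closure.isOpen_compl.mem_nhds
        (show y ∈ (closure D)ᶜ from fun h => hyD (mem_of_mem_closure hu.isClosed h hy)))
        fun w hw => indicator_of_notMem (fun h => hw (subset_closure h)) θ⟩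
  have hsm : ContDiffOn ℝ ∞ φ Kᶜ := fun y hy => by
    rcases hloc y hy with ⟨-, h⟩ | ⟨-, h⟩
    · exact (hθ.1.contDiffAt.congr_of_eventuallyEq h).contDiffWithinAt
    · exact (contDiffAt_const.congr_of_eventuallyEq h).contDiffWithinAt
  have hg : grad φ =ᵐ[volume] D.indicator (grad θ) := by
    filter_upwards [measure_eq_zero_iff_ae_notMem.1 hu.null] with y hy
    rcases hloc y hy with ⟨hyD, h⟩ | ⟨hyD, h⟩
    · rw [grad_congr h, indicator_of_mem hyD]
    · rw [grad_congr h, indicator_of_notMem hyD]
      simp [grad, Complex.ext_iff]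
  have hcs : HasCompactSupport φ := by
    refine hθ.2.1.mono fun y hy => ?_
    rw [Function.mem_support] at hy ⊢
    exact fun h0 => hy (by simp [hφ, indicator_apply, h0])
  have he := hu.euler hsm hcs
    ((memLp_congr_ae hg).2 ((memLp_grad_test hθ).indicator hDo.measurableSet))
  rw [← he, ← integral_indicator hDo.measurableSet]
  refine integral_congr_ae ?_
  filter_upwards [hg] with y hy
  rw [hy]
  by_cases hyD : y ∈ D
  · rw [indicator_of_mem hyD, indicator_of_mem hyD, hq y hyD, fderiv_dir]
    simp only [dot]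
    ring
  · rw [indicator_of_notMem hyD, indicator_of_notMem hyD]
    simp [dot]

/-- Translations along the gradient keep the component in its closure. -/
private lemma shift_mem_closure (hu : Reg u K)
    (hq : ∀ y ∈ connectedComponentIn Kᶜ z, grad u y = q) {y₀ : ℂ}
    (hy₀ : y₀ ∈ connectedComponentIn Kᶜ z) (t : ℝ) :
    y₀ + t • q ∈ closure (connectedComponentIn Kᶜ z) := by
  set D := connectedComponentIn Kᶜ z with hD
  by_contra hn
  have hDo : IsOpen D := hu.isClosed.isOpen_compl.connectedComponentIn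
  obtain ⟨ε, hε, hε'⟩ := Metric.isOpen_iff.1 isClosed_closure.isOpen_compl _ hn
  obtain ⟨ε₀, hε₀, hε₀'⟩ := Metric.isOpen_iff.1 hDo _ hy₀
  set d := min ε ε₀ with hd
  have hd0 : 0 < d := lt_min hε hε₀
  set θ : ContDiffBump (y₀ + t • q) := ⟨d / 4, d / 2, by linarith, by linarith⟩ with hθd
  have hθ : IsTest univ (θ : ℂ → ℝ) := ⟨θ.contDiff, θ.hasCompactSupport, subset_univ _⟩
  have hout : ∀ w, d ≤ dist w (y₀ + t • q) → θ w = 0 := fun w hw =>
    θ.zero_of_le_dist (by show d / 2 ≤ _; linarith)
  have h0 : ∫ y in D, θ y = 0 := by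
    refine setIntegral_eq_zero_of_forall_eq_zero fun y hy => hout y ?_
    by_contra h
    exact hε' (mem_ball.2 ((not_le.1 h).trans_le (min_le_left _ _))) (subset_closure hy)
  have hpos : 0 < ∫ y in D, θ (y + t • q) := by
    rw [setIntegral_eq_integral_of_forall_compl_eq_zero fun y hy => hout _ ?_]
    · refine Continuous.integral_pos_of_hasCompactSupport_nonneg_nonzero
        (x := y₀) (θ.continuous.comp (continuous_add_const _))
        (θ.hasCompactSupport.comp_homeomorph (Homeomorph.addRight (t • q)))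
        (fun y => θ.nonneg) ?_
      simp only [θ.one_of_mem_closedBall (mem_closedBall_self θ.rIn_pos.le)]
      exact one_ne_zero
    · rw [dist_add_right]
      by_contra h
      exact hy (hε₀' (mem_ball.2 ((not_le.1 h).trans_le (min_le_right _ _))))
  set f : ℝ → ℂ → ℝ := fun s y => fderiv ℝ θ (y + s • q) q with hf
  have hfc : Continuous fun p : ℝ × ℂ => f p.1 p.2 :=
    ((hθ.fderiv_apply q).1.continuous).comp
      (continuous_snd.add (continuous_fst.smul continuous_const))
  have hcont : ∀ s : ℝ, Integrable fun y => θ (y + s • q) := fun s =>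
    Continuous.integrable_of_hasCompactSupport (θ.continuous.comp (continuous_add_const _))
      (θ.hasCompactSupport.comp_homeomorph (Homeomorph.addRight (s • q)))
  obtain ⟨Cb, hCb⟩ := (hθ.fderiv_apply q).2.1.exists_bound_of_continuous
    (hθ.fderiv_apply q).1.continuous
  obtain ⟨M₀, hM₀⟩ := (hθ.fderiv_apply q).2.1.isCompact.isBounded.subset_closedBall (0 : ℂ)
  set M := M₀ + |t| * ‖q‖ with hM
  have hint : Integrable (Function.uncurry f)
      ((volume.restrict (uIoc 0 t)).prod (volume.restrict D)) := by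
    have : IsFiniteMeasure ((volume : Measure ℝ).restrict (uIoc 0 t)) :=
      isFiniteMeasure_restrict.2 (by simp [uIoc])
    have hg : Integrable ((closedBall (0 : ℂ) M).indicator fun _ => Cb)
        ((volume : Measure ℂ).restrict D) :=
      (((integrable_indicator_iff measurableSet_closedBall).2
        (integrableOn_const measure_closedBall_lt_top.ne))).restrict
    refine ((integrable_const (1 : ℝ)).mul_prod hg).mono' hfc.aestronglyMeasurable ?_
    rw [Measure.prod_restrict, ae_restrict_iff' (measurableSet_uIoc.prod hDo.measurableSet)]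
    refine Eventually.of_forall fun p hp => ?_
    rw [one_mul]
    by_cases hpm : p.2 ∈ closedBall (0 : ℂ) M
    · rw [indicator_of_mem hpm]
      exact hCb _
    · rw [indicator_of_notMem hpm]
      have hs : |p.1| ≤ |t| := by
        rcases mem_uIoc.1 hp.1 with h | h <;> rw [abs_le] <;>
          constructor <;> linarith [le_abs_self t, neg_abs_le t, h.1, h.2]
      have : p.2 + p.1 • q ∉ tsupport fun y => fderiv ℝ θ y q := fun h => hpm (by
        have h' := hM₀ h
        rw [mem_closedBall_zero_iff] at h' ⊢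
        have h1 := norm_sub_le (p.2 + p.1 • q) (p.1 • q)
        rw [add_sub_cancel_right, norm_smul, Real.norm_eq_abs] at h1
        have := mul_le_mul_of_nonneg_right hs (norm_nonneg q)
        linarith)
      have hz' := image_eq_zero_of_notMem_tsupport this
      show ‖fderiv ℝ θ (p.2 + p.1 • q) q‖ ≤ 0
      rw [hz', norm_zero]
  have hftc : ∀ y : ℂ, ∫ s in (0 : ℝ)..t, f s y = θ (y + t • q) - θ y := by
    intro y
    rw [intervalIntegral.integral_eq_sub_of_hasDerivAt (f := fun s => θ (y + s • q))]
    · simp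
    · intro s _
      have h1 : HasDerivAt (fun s : ℝ => y + s • q) q s := by
        simpa using ((hasDerivAt_id s).smul_const q).const_add y
      exact ((hθ.1.differentiable (by simp) _).hasFDerivAt).comp_hasDerivAt s h1
    · exact (hfc.comp (continuous_id.prodMk continuous_const)).intervalIntegrable _ _
  have hswap := intervalIntegral_integral_swap (μ := volume.restrict D) hint
  have hzero : ∀ s : ℝ, ∫ y in D, f s y = 0 := by
    intro s
    have ht : IsTest univ fun y => θ (y + s • q) :=
      ⟨θ.contDiff.comp (contDiff_id.add contDiff_const),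
        θ.hasCompactSupport.comp_homeomorph (Homeomorph.addRight (s • q)), subset_univ _⟩
    refine Eq.trans (integral_congr_ae (Eventually.of_forall fun y => ?_))
      (integral_dir_eq_zero hu hq ht)
    simp [hf, fderiv_comp_add_right]
  simp only [hzero, hftc] at hswap
  rw [intervalIntegral.integral_zero, integral_sub (hcont t).restrict
    (θ.continuous.integrable_of_hasCompactSupport θ.hasCompactSupport).restrict, h0,
    sub_zero] at hswap
  linarith

/-- A constant gradient vanishes. -/
theorem doubleZeroGoal : DoubleZeroGoal := by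
  intro u K q z hu hdens hred hz hne hq
  classical
  by_contra hq0
  set D := connectedComponentIn Kᶜ z with hDdef
  have hKo : IsOpen Kᶜ := hu.isClosed.isOpen_compl
  have hDo : IsOpen D := hKo.connectedComponentIn
  have hzD : z ∈ D := mem_connectedComponentIn hz
  obtain ⟨c, hc⟩ := affine_on hu hq
  -- the component is exactly invariant
  have hintc : interior (closure D) ⊆ D := by
    intro y hy
    refine mem_of_mem_closure hu.isClosed (interior_subset hy) fun hyK => ?_
    obtain ⟨r, hr, hr'⟩ := Metric.isOpen_iff.1 isOpen_interior y hy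
    obtain ⟨w, hw, hwK, hwD⟩ := removableGoal u K q z hu hred hz hq y hyK r hr
    exact hwD (mem_of_mem_closure hu.isClosed (interior_subset (hr' hw)) hwK)
  have hinv : ∀ (t : ℝ), ∀ y ∈ D, y + t • q ∈ D := by
    intro t y hy
    refine hintc (interior_maximal ?_ (((Homeomorph.addRight (t • q)).isOpenMap _ hDo))
      (mem_image_of_mem _ hy))
    rintro _ ⟨w, hw, rfl⟩
    exact shift_mem_closure hu hq hw t
  -- coordinates
  set n := ‖q‖ with hn
  have hn0 : 0 < n := norm_pos_iff.2 hq0
  set Φ := rotation (Circle.exp q.arg) with hΦ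
  have hΦn : Φ (n : ℂ) = q := by
    rw [hΦ, rotation_apply, Circle.coe_exp, mul_comm, hn, Complex.norm_mul_exp_arg_mul_I]
  set Ψ := Φ.symm with hΨ
  have hdot : ∀ y, dot q y = n * (Ψ y).re := by
    intro y
    conv_lhs => rw [← hΦn, ← Φ.apply_symm_apply y]
    rw [dot_eq_inner, Φ.inner_map_map, ← dot_eq_inner]
    simp [dot, hΨ]
  set J : Set ℝ := (fun y => (Ψ y).im) '' D with hJ
  have hJc : IsConnected J := (isConnected_connectedComponentIn_iff.2 hz).image _
    (Complex.continuous_im.comp Ψ.continuous).continuousOn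
  have hJo : IsOpen J := (Complex.isOpenMap_im.comp Ψ.toHomeomorph.isOpenMap) _ hDo
  have hmemD : ∀ y, (Ψ y).im ∈ J → y ∈ D := by
    rintro y ⟨w, hw, hwy⟩
    set t := ((Ψ y).re - (Ψ w).re) / n with ht
    have : y = w + t • q := by
      apply Ψ.injective
      rw [map_add, map_smul, show Ψ q = (n : ℂ) by rw [← hΦn]; exact Φ.symm_apply_apply _]
      apply Complex.ext
      · simp [ht]
        field_simp
        ring
      · simpa using hwy.symm
    rw [this]
    exact hinv t w hw
  -- no half plane
  have hhalf : ∀ m : ℝ, ¬ ball m (3 / n ^ 2) ⊆ J := by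
    intro m hm
    set R := 3 / n ^ 2 with hR
    have hR0 : 0 < R := by positivity
    have hsub : ball (Φ ⟨0, m⟩) R ⊆ D := fun y hy => hmemD y (hm (mem_ball.2 (by
      rw [mem_ball, ← Ψ.dist_map, show Ψ (Φ ⟨0, m⟩) = ⟨0, m⟩ from Φ.symm_apply_apply _,
        dist_eq_norm] at hy
      rw [Real.dist_eq]
      exact (Complex.abs_im_le_norm (Ψ y - ⟨0, m⟩)).trans_lt hy)))
    have h := (hdens (Φ ⟨0, m⟩) R hR0.le).2
    rw [setIntegral_congr_fun measurableSet_ball (g := fun _ => n ^ 2)
      (fun y hy => by simp only [hq y (hsub hy)]; rw [hn]), setIntegral_const,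
      measureReal_def, Complex.volume_ball, ENNReal.toReal_mul, ENNReal.toReal_pow,
      ENNReal.toReal_ofReal hR0.le, ENNReal.coe_toReal, NNReal.coe_real_pi, smul_eq_mul] at h
    have e : R * n ^ 2 = 3 := by rw [hR]; field_simp
    have hp := mul_pos Real.pi_pos hR0
    nlinarith
  have hbb : BddBelow J ∧ BddAbove J := by
    obtain ⟨p, hp⟩ := hJc.nonempty
    constructor <;> by_contra h
    · refine hhalf (p - 3 / n ^ 2) fun b hb => ?_
      rw [Real.ball_eq_Ioo] at hb
      obtain ⟨l, hl, hlb⟩ := not_bddBelow_iff.1 h b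
      exact hJc.Icc_subset hl hp ⟨hlb.le, by linarith [hb.2]⟩
    · refine hhalf (p + 3 / n ^ 2) fun b hb => ?_
      rw [Real.ball_eq_Ioo] at hb
      obtain ⟨l, hl, hlb⟩ := not_bddAbove_iff.1 h b
      exact hJc.Icc_subset hp hl ⟨by linarith [hb.1], hlb.le⟩
  set lo := sInf J with hlo
  set hi := sSup J with hhi
  have hloJ : lo ∉ J := fun h => by
    obtain ⟨e, he, he'⟩ := Metric.isOpen_iff.1 hJo lo h
    have : lo - e / 2 ∈ J := he' (mem_ball.2 (by
      rw [Real.dist_eq, abs_lt]; constructor <;> linarith))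
    linarith [csInf_le hbb.1 this]
  have hhiJ : hi ∉ J := fun h => by
    obtain ⟨e, he, he'⟩ := Metric.isOpen_iff.1 hJo hi h
    have : hi + e / 2 ∈ J := he' (mem_ball.2 (by
      rw [Real.dist_eq, abs_lt]; constructor <;> linarith))
    linarith [le_csSup hbb.2 this]
  have hJ' : Ioo lo hi ⊆ J := hJc.Ioo_csInf_csSup_subset hbb.1 hbb.2
  have hlh : lo < hi := by
    obtain ⟨p, hp⟩ := hJc.nonempty
    have h1 : lo ≤ p := csInf_le hbb.1 hp
    have h2 : p ≤ hi := le_csSup hbb.2 hp
    exact lt_of_le_of_ne (h1.trans h2) fun e => hloJ (by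
      rw [show lo = p from le_antisymm h1 (by rw [e]; exact h2)]
      exact hp)
  -- the long sides lie in `K`
  have hside : ∀ y, (Ψ y).im = lo ∨ (Ψ y).im = hi → y ∈ K := by
    intro y hy
    by_contra hyK
    have hyD : y ∉ D := fun h => by
      have : (Ψ y).im ∈ J := mem_image_of_mem _ h
      rcases hy with e | e <;> rw [e] at this
      · exact hloJ this
      · exact hhiJ this
    refine hyD (mem_of_mem_closure hu.isClosed ?_ hyK)
    have hcl : (Ψ y).im ∈ closure J := closure_mono hJ' (by
      rw [closure_Ioo hlh.ne]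
      rcases hy with e | e <;> rw [e]
      · exact left_mem_Icc.2 hlh.le
      · exact right_mem_Icc.2 hlh.le)
    have hpre : (fun w => (Ψ w).im) ⁻¹' closure J ⊆ closure D := by
      have ho : IsOpenMap fun w => (Ψ w).im :=
        Complex.isOpenMap_im.comp Ψ.toHomeomorph.isOpenMap
      rw [ho.preimage_closure_eq_closure_preimage (Complex.continuous_im.comp Ψ.continuous)]
      exact closure_mono fun w hw => hmemD w hw
    exact hpre hcl
  -- the rectangle
  set R := 2 / n ^ 2 with hR
  have hR0 : 0 < R := by positivity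
  set T := Ψ ⁻¹' (Ioo (-R) R ×ℂ Ioo lo hi) with hT
  set T' := Ψ ⁻¹' (Icc (-R) R ×ℂ Icc lo hi) with hT'
  have hTo : IsOpen T := (isOpen_Ioo.reProdIm isOpen_Ioo).preimage Ψ.continuous
  have hT'c : IsClosed T' := (isClosed_Icc.reProdIm isClosed_Icc).preimage Ψ.continuous
  have hTT : T ⊆ T' := fun y hy => ⟨Ioo_subset_Icc_self hy.1, Ioo_subset_Icc_self hy.2⟩
  have hTD : T ⊆ D := fun y hy => hmemD y (hJ' hy.2)
  set S : Set ℂ := segment ℝ (Φ ⟨R, lo⟩) (Φ ⟨R, hi⟩) ∪ segment ℝ (Φ ⟨-R, lo⟩) (Φ ⟨-R, hi⟩)
    with hS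
  have hseg : ∀ a y, (Ψ y).re = a → (Ψ y).im ∈ Icc lo hi →
      y ∈ segment ℝ (Φ ⟨a, lo⟩) (Φ ⟨a, hi⟩) := by
    intro a y h1 h2
    rw [segment_eq_image']
    refine ⟨((Ψ y).im - lo) / (hi - lo), ⟨div_nonneg (by linarith [h2.1]) (by linarith),
      (div_le_one (by linarith)).2 (by linarith [h2.2])⟩, ?_⟩
    apply Ψ.injective
    simp only [map_add, map_smul, map_sub, hΨ, LinearIsometryEquiv.symm_apply_apply]
    have : hi - lo ≠ 0 := by linarith
    apply Complex.ext
    · simp only [Complex.add_re, Complex.smul_re, Complex.sub_re, sub_self, smul_zero, add_zero]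
      exact h1.symm
    · simp only [Complex.add_im, Complex.smul_im, Complex.sub_im, smul_eq_mul]
      field_simp
      ring
  have hedge : ∀ y ∈ T', y ∉ T → y ∈ K ∪ S := by
    rintro y ⟨h1, h2⟩ hn'
    rcases eq_or_lt_of_le (show lo ≤ (Ψ y).im from h2.1) with e | e
    · exact Or.inl (hside y (Or.inl e.symm))
    rcases eq_or_lt_of_le (show (Ψ y).im ≤ hi from h2.2) with e' | e'
    · exact Or.inl (hside y (Or.inr e'))
    rcases eq_or_lt_of_le (show -R ≤ (Ψ y).re from h1.1) with e'' | e''
    · exact Or.inr (Or.inr (hseg (-R) y e''.symm h2))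
    rcases eq_or_lt_of_le (show (Ψ y).re ≤ R from h1.2) with f | f
    · exact Or.inr (Or.inl (hseg R y f h2))
    · exact absurd ⟨⟨e'', f⟩, ⟨e, e'⟩⟩ hn'
  set ρ := R + |lo| + |hi| with hρ
  have hnorm : ∀ w : ℂ, |w.re| ≤ R → w.im ∈ Icc lo hi → ‖w‖ ≤ ρ := by
    intro w h1 h2
    have h3 := Complex.norm_le_abs_re_add_abs_im w
    have h4 : |w.im| ≤ |lo| + |hi| := by
      rw [abs_le]
      constructor <;>
        linarith [h2.1, h2.2, neg_abs_le lo, le_abs_self hi, abs_nonneg lo, abs_nonneg hi]
    linarith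
  have hT'ρ : T' ⊆ closedBall 0 ρ := fun y hy => by
    rw [mem_closedBall_zero_iff, ← Ψ.norm_map]
    exact hnorm _ (abs_le.2 hy.1) hy.2
  have hsρ : ∀ a, |a| ≤ R → segment ℝ (Φ ⟨a, lo⟩) (Φ ⟨a, hi⟩) ⊆ closedBall 0 ρ := fun a ha =>
    (convex_closedBall _ _).segment_subset
      (mem_closedBall_zero_iff.2 (by rw [Φ.norm_map]; exact hnorm _ ha (left_mem_Icc.2 hlh.le)))
      (mem_closedBall_zero_iff.2 (by rw [Φ.norm_map]; exact hnorm _ ha (right_mem_Icc.2 hlh.le)))
  have hSρ : S ⊆ closedBall 0 ρ :=
    union_subset (hsρ R (abs_of_pos hR0).le) (hsρ (-R) (by rw [abs_neg, abs_of_pos hR0]))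
  set m : Measure ℂ := Measure.hausdorffMeasure 1 with hmdef
  have hlen : ∀ a, m (segment ℝ (Φ ⟨a, lo⟩) (Φ ⟨a, hi⟩)) = ENNReal.ofReal (hi - lo) := fun a => by
    rw [hmdef, hausdorffMeasure_segment, edist_dist, Φ.dist_map,
      Complex.dist_of_re_eq (z := ⟨a, lo⟩) (w := ⟨a, hi⟩) rfl, Real.dist_eq, abs_sub_comm, abs_of_nonneg (by linarith)]
  have hmS : m S ≤ ENNReal.ofReal (hi - lo) + ENNReal.ofReal (hi - lo) :=
    (measure_union_le _ _).trans (by rw [hlen, hlen])
  have htop : ENNReal.ofReal (hi - lo) + ENNReal.ofReal (hi - lo) ≠ ⊤ := by simp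
  have hSnull : (volume : Measure ℂ) S = 0 :=
    volume_eq_zero_of_length (ne_top_of_le_ne_top htop hmS)
  have hSc : IsClosed S := by
    refine IsClosed.union ?_ ?_ <;> rw [← convexHull_pair] <;>
      exact (toFinite _).isClosed_convexHull ℝ
  set δ : ℂ → ℝ := T.indicator fun y => -u y with hδ
  have hδT : ∀ y ∈ T, u y + δ y = 0 := fun y hy => by simp [hδ, indicator_of_mem hy]
  have hδ0 : ∀ y, y ∉ T' → δ y = 0 := fun y hy => indicator_of_notMem (fun h => hy (hTT h)) _
  have hv : ContDiffOn ℝ ∞ (fun y => u y + δ y) (K ∪ S)ᶜ := by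
    intro y hy
    by_cases hyT : y ∈ T
    · exact (contDiffAt_const.congr_of_eventuallyEq
        (eventually_of_mem (hTo.mem_nhds hyT) hδT)).contDiffWithinAt
    · have hyT' : y ∉ T' := fun h => hy (hedge y h hyT)
      have hyK : y ∉ K := fun h => hy (Or.inl h)
      refine (((hu.smooth y hyK).contDiffAt (hKo.mem_nhds hyK)).congr_of_eventuallyEq
        ?_).contDiffWithinAt
      filter_upwards [hT'c.isOpen_compl.mem_nhds hyT'] with w hw
      simp [hδ0 w hw]
  have hLnull : (volume : Measure ℂ) (K ∪ S) = 0 := measure_union_null hu.null hSnull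
  have hgδ : grad δ =ᵐ[volume] T.indicator fun _ => -q := by
    filter_upwards [measure_eq_zero_iff_ae_notMem.1 hLnull] with y hy
    by_cases hyT : y ∈ T
    · have hyK : y ∉ K := fun h => hy (Or.inl h)
      have hd : DifferentiableAt ℝ u y :=
        ((hu.smooth y hyK).contDiffAt (hKo.mem_nhds hyK)).differentiableAt (by simp)
      rw [indicator_of_mem hyT, grad_congr (g := fun w => (-1 : ℝ) * u w)
        (eventually_of_mem (hTo.mem_nhds hyT) fun w hw => by simp [hδ, indicator_of_mem hw]),
        grad_const_mul (-1) hd, hq y (hTD hyT), neg_one_smul]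
    · rw [indicator_of_notMem hyT,
        grad_eq_zero_outside hT'c hδ0 fun h => hy (hedge y h hyT)]
  have hTvol : (volume : Measure ℂ) T = ENNReal.ofReal (2 * R) * ENNReal.ofReal (hi - lo) := by
    rw [hT, Ψ.measurePreserving.measure_preimage
      (isOpen_Ioo.reProdIm isOpen_Ioo).measurableSet.nullMeasurableSet,
      show Ioo (-R) R ×ℂ Ioo lo hi =
        Complex.measurableEquivRealProd ⁻¹' (Ioo (-R) R ×ˢ Ioo lo hi) from rfl,
      Complex.volume_preserving_equiv_real_prod.measure_preimage
        (measurableSet_Ioo.prod measurableSet_Ioo).nullMeasurableSet,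
      Measure.volume_eq_prod, Measure.prod_prod, Real.volume_Ioo, Real.volume_Ioo]
    congr 2
    ring
  have hTfin : (volume : Measure ℂ) T ≠ ⊤ := by
    rw [hTvol]; exact ENNReal.mul_ne_top ENNReal.ofReal_ne_top ENNReal.ofReal_ne_top
  have hmem : MemLp (grad δ) 2 :=
    (memLp_congr_ae hgδ).2 (memLp_indicator_const 2 hTo.measurableSet (-q) (Or.inr hTfin))
  have e1 : ∫ y, ‖grad δ y‖ ^ 2 = n ^ 2 * (2 * R * (hi - lo)) := by
    rw [integral_congr_ae (g := T.indicator fun _ => n ^ 2) (hgδ.mono fun y hy => by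
      simp only [hy]
      by_cases h : y ∈ T <;> simp [h, hn]), integral_indicator hTo.measurableSet,
      setIntegral_const, measureReal_def, hTvol, ENNReal.toReal_mul,
      ENNReal.toReal_ofReal (by positivity), ENNReal.toReal_ofReal (by linarith), smul_eq_mul]
    ring
  have e2 : ∫ y, dot (grad u y) (grad δ y) = -(n ^ 2 * (2 * R * (hi - lo))) := by
    rw [← e1, ← integral_neg]
    refine integral_congr_ae (hgδ.mono fun y hy => ?_)
    simp only [hy]
    by_cases h : y ∈ T
    · simp only [indicator_of_mem h, hq y (hTD h), dot_eq_inner, inner_neg_right, norm_neg,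
        real_inner_self_eq_norm_sq]
    · simp [indicator_of_notMem h, dot]
  have hKfin := hu.length_ne_top (ρ + 1)
  have hmL : m ((K ∪ S) ∩ ball 0 (ρ + 1)) ≤
      m (K ∩ ball 0 (ρ + 1)) + (ENNReal.ofReal (hi - lo) + ENNReal.ofReal (hi - lo)) :=
    (measure_mono (t := K ∩ ball 0 (ρ + 1) ∪ S) fun y hy =>
      hy.1.imp (fun h => ⟨h, hy.2⟩) id).trans ((measure_union_le _ _).trans (by gcongr))
  have hfinL := ne_top_of_le_ne_top (ENNReal.add_ne_top.2 ⟨hKfin, htop⟩) hmL
  have h := hu.vary (K ∪ S) δ ρ (hu.isClosed.union hSc) hLnull hv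
    (fun y hy => hδ0 y fun h => hy (hT'ρ h))
    (by
      ext y
      exact ⟨fun h => ⟨h.1.resolve_right fun h' => h.2 (hSρ h'), h.2⟩,
        fun h => ⟨Or.inl h.1, h.2⟩⟩)
    (fun a b _ _ hn' hb =>
      hn' (connectedComponentIn_mono a (compl_subset_compl.2 subset_union_left) hb))
    hfinL hmem
  have h1 := ENNReal.toReal_mono (ENNReal.add_ne_top.2 ⟨hKfin, htop⟩) hmL
  rw [ENNReal.toReal_add hKfin htop, ENNReal.toReal_add ENNReal.ofReal_ne_top
    ENNReal.ofReal_ne_top, ENNReal.toReal_ofReal (by linarith)] at h1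
  rw [e1, e2, ← hmdef] at h
  have e : n ^ 2 * R = 2 := by rw [hR]; field_simp
  nlinarith

end Vale.Agent.P128.Connected
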