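import Vale.Agent.P128.Connected.Separating.Interface
import Vale.Agent.P128.Connected.Assembly
import Vale.Agent.P128.Islands.Topology

/-!
# Every reduced global minimiser has a connected singular set: assembly

No component of `K` is separated from the others by a gradient, and translating shows that the
rest never disconnects. So with two components the complement is connected, the gradient is zero
there, and then `K` is removable.
-/

namespace Vale.Agent.P128.Connected

open MeasureTheory Filter Metric Set Islands
open scoped Topology ENNReal NNReal ContDiff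

/-- **Assembly.** -/
theorem allConnected_of (hW : WeylGoal) (hL : LengthGoal) (hU : UnboundedComponentsGoal)
    (hDen : DensityGoal) (hCov : CoverGoal) (hCont : ContinuumGoal) (hCP : CurvePiecesGoal)
    (hPU : PiecesUnionGoal) (hPot : PotentialGoal) (hCC : CurveConstantGoal) (hT : TraceGoal)
    (hLay : LayersGoal) (hRig : RigidGoal) (hRem : RemovableGoal) (hDZ : DoubleZeroGoal)
    (hTr : TranslateGoal) : AllConnectedGoal := by
  intro u₀ G₀ K hm hred
  obtain ⟨hunb, hcount⟩ := hU u₀ G₀ K hm hred
  obtain ⟨u, hreg⟩ := exists_reg hW hL hm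
  have hD := hDen u K hreg
  have hpieces : ∀ R, ConePieces (K ∩ ball 0 R) := by
    intro R
    obtain ⟨F, hF, hcov⟩ := hCov K hreg.isClosed hunb hreg.length_ne_top (|R| + 1) (by positivity)
    refine hPU F _ (fun J hJ => ?_) (hreg.isClosed.measurableSet.inter measurableSet_ball) ?_
    · obtain ⟨hJc, hJp, hJn, _, hJf⟩ := hF J hJ
      obtain ⟨γ, L, hγ, hγJ⟩ := hCont J hJc hJp hJn hJf
      exact ⟨hγJ ▸ hCP γ L hγ, hJc.measurableSet⟩
    · exact fun z hz => hcov ⟨hz.1, ball_subset_ball (by linarith [le_abs_self R]) hz.2⟩
  obtain ⟨v, hvc, hvs, hvg⟩ := hPot u K hreg hD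
  have hconst : ∀ y ∈ K, ∀ z ∈ connectedComponentIn K y, v z = v y := fun y hy z hz =>
    constant_on_component hCov hCont hCC hreg hD hunb hvc hvs hvg hy hz
  -- the gradient vanishes next to a component and the rest
  have hzero : ∀ a ∈ K, ∀ z ∉ K,
      (closure (connectedComponentIn Kᶜ z) ∩ connectedComponentIn K a).Nonempty →
      (closure (connectedComponentIn Kᶜ z) ∩ (K \ connectedComponentIn K a)).Nonempty →
      ∀ y ∈ connectedComponentIn Kᶜ z, grad u y = 0 := by
    intro a ha z hz t₁ t₂
    obtain ⟨h₁, h₂, hfin⟩ := closed_split hreg.isClosed hcount a ha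
    obtain ⟨χ, hχs, hχr, hχ1, hχ0⟩ := exists_split_cutoff h₁ h₂ disjoint_sdiff_right
    have hS : Split u K (connectedComponentIn K a) (K \ connectedComponentIn K a) χ :=
      ⟨hreg, hD, union_sdiff_cancel (connectedComponentIn_subset _ _), h₁, h₂, hχs, hχr, hχ1, hχ0⟩
    have hvals : (v '' K).Finite := by
      classical
      let val : Set ℂ → ℝ := fun C => if h : C.Nonempty then v h.choose else 0
      refine (hfin.image val).subset ?_
      rintro _ ⟨y, hy, rfl⟩
      refine ⟨_, ⟨y, hy, rfl⟩, ?_⟩
      have hn : (connectedComponentIn K y).Nonempty := ⟨y, mem_connectedComponentIn hy⟩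
      simp only [val, dif_pos hn]
      exact hconst y hy _ hn.choose_spec
    obtain ⟨M, hM, hsep⟩ : ∃ M > (0 : ℝ), ∀ y ∈ K, v y = v a ∨ M ≤ |v y - v a| := by
      obtain ⟨M, hM, hb⟩ := Metric.isOpen_iff.1
        ((hvals.sdiff : ((v '' K) \ {v a}).Finite).isClosed.isOpen_compl) (v a) (by simp)
      refine ⟨M, hM, fun y hy => ?_⟩
      by_contra h
      push Not at h
      exact hb (by simpa [Real.dist_eq] using h.2 : v y ∈ ball (v a) M)
        ⟨mem_image_of_mem v hy, h.1⟩
    obtain ⟨C, hC⟩ := hT u K _ _ χ v (v a) M hS hvc hvs hvg hM (hconst a ha) hsep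
    obtain ⟨C', S, P, hlay⟩ := hLay u K _ _ χ C hS hC
    have hq := hRig u K _ _ χ C' S P hS hred hpieces hlay z hz t₁ t₂
    intro y hy
    rw [hq y hy]
    exact hDZ u K _ z hreg hD hred hz ⟨a, ha⟩ hq
  -- the rest does not disconnect
  have hrest : ∀ a ∈ K, IsPreconnected (K \ connectedComponentIn K a)ᶜ ∧
      Dense (connectedComponentIn (K \ connectedComponentIn K a)ᶜ a) := by
    intro a ha
    obtain ⟨h₁, h₂, -⟩ := closed_split hreg.isClosed hcount a ha
    have hd := hTr u K _ a hreg hD hred hpieces (connectedComponentIn_subset _ _) h₁ h₂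
      isPreconnected_connectedComponentIn (mem_connectedComponentIn ha) (hzero a ha)
    exact ⟨isPreconnected_connectedComponentIn.subset_closure (connectedComponentIn_subset _ _)
      (by rw [hd.closure_eq]; exact subset_univ _), hd⟩
  by_contra hnot
  obtain ⟨x, hx⟩ : K.Nonempty :=
    nonempty_iff_ne_empty.2 fun h => hnot (h ▸ isPreconnected_empty)
  set A := connectedComponentIn K x with hA
  obtain ⟨b, hb, hbA⟩ : ∃ b ∈ K, b ∉ A := by
    by_contra h
    push Not at h
    exact hnot (subset_antisymm h (connectedComponentIn_subset _ _) ▸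
      isPreconnected_connectedComponentIn)
  obtain ⟨hAc, hA'c, -⟩ := closed_split hreg.isClosed hcount x hx
  -- the complement of `A` is connected
  have hAconn : IsPreconnected Aᶜ := by
    obtain ⟨hp, hd⟩ := hrest b hb
    refine hp.subset_closure (compl_subset_compl.2 ?_) ?_
    · refine fun z hz => ⟨connectedComponentIn_subset _ _ hz, fun hzB => hbA ?_⟩
      rw [hA, connectedComponentIn_eq hz, ← connectedComponentIn_eq hzB]
      exact mem_connectedComponentIn hb
    · rw [(hd.mono (connectedComponentIn_subset _ _)).closure_eq]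
      exact subset_univ _
  -- hence the complement of `K` is connected
  have hKc : ∀ p ∉ K, connectedComponentIn Kᶜ p = Kᶜ := by
    intro p hp
    refine subset_antisymm (connectedComponentIn_subset _ _) fun q hq => ?_
    have e : Aᶜ ∩ (K \ A)ᶜ = Kᶜ := by
      rw [← compl_union, union_sdiff_cancel (connectedComponentIn_subset _ _)]
    have h := Plane.mem_component_inter hAc.isOpen_compl hA'c.isOpen_compl (x := p) (y := q)
      (by
        refine eq_univ_of_forall fun z => ?_
        by_cases hz : z ∈ A
        · exact Or.inr fun h => h.2 hz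
        · exact Or.inl hz)
      (e.symm ▸ hp) (e.symm ▸ hq)
      (hAconn.subset_connectedComponentIn (fun h => hp (connectedComponentIn_subset _ _ h))
        subset_rfl fun h => hq (connectedComponentIn_subset _ _ h))
      ((hrest x hx).1.subset_connectedComponentIn (fun h => hp h.1) subset_rfl fun h => hq h.1)
    rwa [e] at h
  obtain ⟨p, hp⟩ : ∃ p, p ∉ K := by
    by_contra h
    push Not at h
    exact (isOpen_univ.measure_pos (volume : Measure ℂ) univ_nonempty).ne'
      (measure_mono_null (fun z _ => h z) hreg.null)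
  have hdense : closure (connectedComponentIn Kᶜ p) = univ := by
    rw [hKc p hp, closure_compl, compl_univ_iff]
    exact Measure.interior_eq_empty_of_null hreg.null
  have h0 := hzero x hx p hp ⟨x, by rw [hdense]; trivial, mem_connectedComponentIn hx⟩
    ⟨b, by rw [hdense]; trivial, hb, hbA⟩
  obtain ⟨y, -, hyK, hyD⟩ := hRem u K 0 p hreg hred hp h0 x hx 1 one_pos
  exact hyD (by rw [hKc p hp]; exact hyK)

end Vale.Agent.P128.Connected
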