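import Vale.Agent.P128.Connected.Separating.Interface
import Vale.Agent.P128.Connected.Limit
import Vale.Agent.P128.Connected.OffCritical
import Vale.Agent.P128.Connected.Removal
import Vale.Agent.P128.Islands.Weak
import Vale.Agent.P128.Islands.Field

/-!
# Rigidity next to two parts of the singular set

Where the limit field of one part is not critical, a small disk minus `K` is connected and `K` can
be removed there. So all of the part consists of critical points, and the field is constant. With
both orientations the gradient is constant on a component of the complement touching both parts.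
-/

namespace Vale.Agent.P128.Connected

open MeasureTheory Filter Metric Set Islands ComplexConjugate InnerProductSpace
open scoped Topology ENNReal NNReal ContDiff Laplacian

/-- A labelling of the complement of the competitor keeps separation. -/
lemma keepsSeparation_of_label {K L B : Set ℂ} (lab : ℂ → Set ℂ)
    (hloc : ∀ z ∈ Lᶜ, lab =ᶠ[𝓝[Lᶜ] z] fun _ => lab z)
    (hout : ∀ z, z ∉ B ∪ K → lab z = connectedComponentIn Kᶜ z) :
    KeepsSeparation K L B := by
  intro x y hx hy hne hy'
  by_cases hxL : x ∈ Lᶜ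
  swap
  · simp [connectedComponentIn_eq_empty hxL] at hy'
  set C := connectedComponentIn Lᶜ x
  have hC : IsPreconnected C := isPreconnected_connectedComponentIn
  have := Subtype.preconnectedSpace hC
  have hlc : IsLocallyConstant fun z : C => lab z := by
    refine (IsLocallyConstant.iff_eventually_eq _).2 fun z => ?_
    exact (continuous_subtype_val.tendsto z |>.inf (tendsto_principal_principal.2
      (fun (w : C) (_ : w ∈ univ) => connectedComponentIn_subset _ _ w.2)) |>.mono_left
        (by simp)).eventually (hloc z (connectedComponentIn_subset _ _ z.2))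
  have h := hlc.apply_eq_of_preconnectedSpace ⟨x, mem_connectedComponentIn hxL⟩ ⟨y, hy'⟩
  simp only [hout x hx, hout y hy] at h
  exact hne (h ▸ mem_connectedComponentIn fun hh => hy (Or.inr hh))

/-- Second derivatives of tests are integrable. -/
lemma integrable_second {U : Set ℂ} {φ : ℂ → ℝ} (hφ : IsTest U φ) (v : ℂ) :
    Integrable fun z => fderiv ℝ (fun y => fderiv ℝ φ y v) z v :=
  (((hφ.fderiv_apply v).fderiv_apply v).1.continuous).integrable_of_hasCompactSupport
    ((hφ.fderiv_apply v).fderiv_apply v).2.1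

/-- A function equal to `0` or `1` with vanishing weak gradient on a disk is constant there. -/
lemma const_of_weak_grad_zero (hW : WeylGoal) {x : ℂ} {r : ℝ} {W : Set ℂ} (hWo : IsOpen W)
    (h : ∀ (v : ℂ) (θ : ℂ → ℝ), IsTest (ball x r) θ → ∫ z in W, fderiv ℝ θ z v = 0) :
    volume (ball x r ∩ W) = 0 ∨ volume (ball x r \ W) = 0 := by
  classical
  set f : ℂ → ℝ := W.indicator fun _ => 1 with hf
  have hwh : IsWeakHarmonic (ball x r) f := by
    refine ⟨?_, fun φ hφ => ?_⟩
    · exact (((locallyIntegrable_const (1 : ℝ)).locallyIntegrableOn univ).mono_set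
        (subset_univ _)).mono (measurable_const.indicator hWo.measurableSet).aestronglyMeasurable
        (Eventually.of_forall fun z => by by_cases hz : z ∈ W <;> simp [hf, hz])
    · have e : ∀ z, f z * Δ φ z = W.indicator (fun z =>
          fderiv ℝ (fun y => fderiv ℝ φ y 1) z 1 +
            fderiv ℝ (fun y => fderiv ℝ φ y Complex.I) z Complex.I) z := fun z => by
        rw [laplacian_eq_iteratedFDeriv_complexPlane]
        by_cases hz : z ∈ W
        · simp [hf, hz, iteratedFDeriv_two_apply,
            fderiv_clm_apply ((hφ.1.fderiv_right (m := ∞) le_rfl).differentiable (by simp) z)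
              (differentiableAt_const _)]
        · simp [hf, hz]
      simp only [e]
      rw [integral_indicator hWo.measurableSet, integral_add
        (integrable_second hφ 1).integrableOn (integrable_second hφ Complex.I).integrableOn,
        h 1 _ (hφ.fderiv_apply 1), h Complex.I _ (hφ.fderiv_apply Complex.I), add_zero]
  obtain ⟨g, hg, hfg⟩ := hW _ isOpen_ball f hwh
  have hgc : ContinuousOn g (ball x r) := fun z hz =>
    (hg z hz).1.continuousAt.continuousWithinAt
  -- the continuous representative takes the values zero and one only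
  have hval : ∀ z ∈ ball x r, g z = 0 ∨ g z = 1 := by
    have h0 : EqOn (fun z => g z * (g z - 1)) (fun _ => 0) (ball x r) := by
      refine Measure.eqOn_open_of_ae_eq (μ := volume) ?_ isOpen_ball (hgc.mul (hgc.sub continuousOn_const))
        continuousOn_const
      filter_upwards [hfg] with z hz
      rw [← hz]
      by_cases hzW : z ∈ W <;> simp [hf, hzW]
    intro z hz
    rcases mul_eq_zero.1 (h0 hz) with h1 | h1
    exacts [Or.inl h1, Or.inr (by linarith)]
  have hconst : (∀ z ∈ ball x r, g z = 0) ∨ ∀ z ∈ ball x r, g z = 1 := by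
    by_contra hh
    push Not at hh
    obtain ⟨⟨p, hp, hp'⟩, ⟨q, hq, hq'⟩⟩ := hh
    have hp1 := (hval p hp).resolve_left hp'
    have hq0 := (hval q hq).resolve_right hq'
    obtain ⟨z, hz, hz'⟩ := (convex_ball x r).isPreconnected.intermediate_value hq hp hgc
      (show (1 / 2 : ℝ) ∈ Icc (g q) (g p) by rw [hp1, hq0]; norm_num)
    rcases hval z hz with h1 | h1 <;> rw [h1] at hz' <;> norm_num at hz'
  have hae := (ae_restrict_iff' measurableSet_ball).1 hfg
  rcases hconst with h0 | h1
  · left
    refine measure_eq_zero_iff_ae_notMem.2 (hae.mono fun z hz hzW => ?_)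
    simpa [hf, hzW.2, h0 z hzW.1] using hz hzW.1
  · right
    refine measure_eq_zero_iff_ae_notMem.2 (hae.mono fun z hz hzW => ?_)
    simpa [hf, hzW.2, h1 z hzW.1] using hz hzW.1

/-- Where the field is not critical, a small disk minus `K` is connected. -/
lemma isPreconnected_ball_sdiff (hW : WeylGoal) {u : ℂ → ℝ} {K K₂ : Set ℂ} {χ : ℂ → ℝ} {g : ℂ → ℂ}
    (hu : Reg u K) (hK₂ : IsClosed K₂) (hg : IsPotentialField K₂ᶜ g)
    (horth : ∀ φ, IsNearVariation K χ φ → ∀ e : ℂ, ∫ x, dot (grad φ x) (fderiv ℝ g x e) = 0)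
    {y : ℂ} {r : ℝ}
    (hsub : ball y r ⊆ interior {x | χ x = 1} ∩ K₂ᶜ)
    (hne : ∀ x ∈ ball y r, fderiv ℝ g x 1 ≠ 0) :
    IsPreconnected (ball y r \ K) := by
  classical
  set B := ball y r with hB
  set U := B \ K with hU
  have hUo : IsOpen U := isOpen_ball.sdiff hu.isClosed
  refine isPreconnected_of_forall_pair fun p hp q hq => ?_
  set W := connectedComponentIn U p with hWdef
  have hWo : IsOpen W := hUo.connectedComponentIn
  refine ⟨W, connectedComponentIn_subset _ _, mem_connectedComponentIn hp, ?_,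
    isPreconnected_connectedComponentIn⟩
  have hclop : ∀ z ∈ U, ∀ᶠ w in 𝓝 z, (w ∈ W ↔ z ∈ W) := by
    intro z hz
    filter_upwards [hUo.connectedComponentIn.mem_nhds (mem_connectedComponentIn hz)] with w hw
    constructor <;> intro hh <;> simp only [hWdef] at hh ⊢ <;> rw [connectedComponentIn_eq hh]
    · rw [← connectedComponentIn_eq hw]; exact mem_connectedComponentIn hz
    · exact hw
  set F : ℂ → ℂ := fun z => conj (g z) with hF
  have hFd : DifferentiableOn ℂ F K₂ᶜ := differentiableOn_conj_field hK₂.isOpen_compl hg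
  have hFB : DifferentiableOn ℂ F B := hFd.mono (hsub.trans inter_subset_right)
  have hdg : ∀ z ∈ B, ∀ e, fderiv ℝ g z e = conj (deriv F z * e) := by
    intro z hz e
    have h := fderiv_conj_apply (hFB.differentiableAt (isOpen_ball.mem_nhds hz)) e
    simpa [hF, Complex.conj_conj] using h
  have hF0 : ∀ z ∈ B, deriv F z ≠ 0 := fun z hz h0 => hne z hz (by rw [hdg z hz 1, h0]; simp)
  -- the weak gradient of the indicator of `W` vanishes
  have hweak : ∀ (v : ℂ) (θ : ℂ → ℝ), IsTest B θ → ∫ z in W, fderiv ℝ θ z v = 0 := by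
    intro v θ hθ
    set h : ℂ → ℂ := fun z => conj v / deriv F z with hh
    have hd : DifferentiableOn ℂ h B := (differentiableOn_const _).div
      (hFB.deriv isOpen_ball) hF0
    have hhs : ContDiffOn ℝ ∞ h B :=
      ((hd.analyticOnNhd isOpen_ball).contDiffOn isOpen_ball.uniqueDiffOn).restrict_scalars ℝ
    have hvar : ∀ L : ℂ →L[ℝ] ℝ,
        IsNearVariation K χ (W.indicator fun z => L (h z) * θ z) ∧
        ∀ᵐ z : ℂ, grad (W.indicator fun z => L (h z) * θ z) z =
          W.indicator (fun z => grad (fun w => L (h w) * θ w) z) z := by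
      intro L
      have hLs : ContDiffOn ℝ ∞ (fun z => L (h z)) B := L.contDiff.comp_contDiffOn hhs
      have ht : IsTest B fun z => L (h z) * θ z :=
        ⟨contDiff_mul_test isOpen_ball hLs hθ, hθ.2.1.mul_left,
          tsupport_mul_subset_right.trans hθ.2.2⟩
      have hloc : ∀ z ∉ K, (W.indicator fun z => L (h z) * θ z) =ᶠ[𝓝 z]
          if z ∈ W then (fun z => L (h z) * θ z) else fun _ => 0 := by
        intro z hz
        by_cases hzB : z ∈ B
        · filter_upwards [hclop z ⟨hzB, hz⟩] with w hw
          by_cases hzW : z ∈ W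
          · rw [if_pos hzW, indicator_of_mem (hw.2 hzW)]
          · rw [if_neg hzW, indicator_of_notMem fun h' => hzW (hw.1 h')]
        · rw [if_neg fun hzW => hzB (connectedComponentIn_subset _ _ hzW).1]
          filter_upwards [(isClosed_tsupport _).isOpen_compl.mem_nhds
            fun h' => hzB (hθ.2.2 h')] with w hw
          by_cases hwW : w ∈ W
          · simp [hwW, image_eq_zero_of_notMem_tsupport hw]
          · simp [hwW]
      have hsm : ContDiffOn ℝ ∞ (W.indicator fun z => L (h z) * θ z) Kᶜ := by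
        intro z hz
        refine (ContDiffAt.congr_of_eventuallyEq ?_ (hloc z hz)).contDiffWithinAt
        split_ifs
        exacts [ht.1.contDiffAt, contDiffAt_const]
      have hgr : ∀ᵐ z : ℂ, grad (W.indicator fun z => L (h z) * θ z) z =
          W.indicator (fun z => grad (fun w => L (h w) * θ w) z) z := by
        filter_upwards [measure_eq_zero_iff_ae_notMem.1 hu.null] with z hz
        rw [grad_congr (hloc z hz)]
        by_cases hzW : z ∈ W
        · rw [if_pos hzW, indicator_of_mem hzW]
        · rw [if_neg hzW, indicator_of_notMem hzW]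
          simp [grad, Complex.ext_iff]
      have hsup : tsupport (W.indicator fun z => L (h z) * θ z) ⊆ tsupport θ := by
        refine closure_mono fun z hz => ?_
        rw [Function.mem_support] at hz ⊢
        intro h0
        by_cases hzW : z ∈ W <;> simp [hzW, h0] at hz
      exact ⟨⟨hsm, HasCompactSupport.of_support_subset_isCompact hθ.2.1.isCompact
        (subset_closure.trans hsup), hsup.trans (hθ.2.2.trans (hsub.trans inter_subset_left)),
        (memLp_congr_ae hgr).2 ((memLp_grad_test (ht.mono (subset_univ _))).indicator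
          hWo.measurableSet)⟩, hgr⟩
    obtain ⟨va, ga⟩ := hvar Complex.reCLM
    obtain ⟨vb, gb⟩ := hvar Complex.imCLM
    have key := congrArg₂ (· + ·) (horth _ va 1) (horth _ vb Complex.I)
    simp only [add_zero] at key
    have hpt : ∀ z ∈ W,
        dot (grad (fun w => (h w).re * θ w) z) (fderiv ℝ g z 1) +
          dot (grad (fun w => (h w).im * θ w) z) (fderiv ℝ g z Complex.I) = fderiv ℝ θ z v := by
      intro z hz
      have hzB : z ∈ B := (connectedComponentIn_subset _ _ hz).1
      have hdh := (hd.differentiableAt (isOpen_ball.mem_nhds hzB)).hasDerivAt.complexToReal_fderiv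
      have hre : HasFDerivAt (fun w => (h w).re) _ z := Complex.reCLM.hasFDerivAt.comp z hdh
      have him : HasFDerivAt (fun w => (h w).im) _ z := Complex.imCLM.hasFDerivAt.comp z hdh
      have hθd := hθ.1.differentiable (by simp) z
      rw [grad_mul (f := fun w => (h w).re) hre.differentiableAt hθd,
        grad_mul (f := fun w => (h w).im) him.differentiableAt hθd, hdg z hzB, hdg z hzB]
      have hv : conj (deriv F z) * (conj (h z)) = v := by
        rw [hh, ← map_mul, mul_div_cancel₀ _ (hF0 z hzB), Complex.conj_conj]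
      have hvre := congrArg Complex.re hv
      have hvim := congrArg Complex.im hv
      have hv' : v = v.re • (1 : ℂ) + v.im • Complex.I := by simp
      conv_rhs => rw [hv', map_add, map_smul, map_smul]
      simp only [grad, hre.fderiv, him.fderiv, dot, mul_one, Complex.add_re, Complex.add_im,
        Complex.smul_re, Complex.smul_im, smul_eq_mul, ContinuousLinearMap.comp_apply,
        Complex.reCLM_apply, Complex.imCLM_apply, Complex.conj_re, Complex.conj_im, Complex.mul_re,
        Complex.mul_im, Complex.I_re, Complex.I_im, ← hvre, ← hvim,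
        smul_apply, one_apply_eq_self]
      ring
    have hmemW : ∀ {f : ℂ → ℝ}, IsTest B f → ∀ e : ℂ,
        Integrable fun z => W.indicator (fun z => dot (grad f z) (fderiv ℝ g z e)) z := by
      intro f hf e
      have hc : ContinuousOn (fun z => fderiv ℝ g z e) B :=
        ((hg.2.2.1.fderiv_of_isOpen hK₂.isOpen_compl (m := ∞) le_rfl).clm_apply
          contDiffOn_const).continuousOn.mono (hsub.trans inter_subset_right)
      have h1 := integrable_mul_test isOpen_ball (Complex.continuous_re.comp_continuousOn hc)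
        (hf.fderiv_apply 1)
      have h2 := integrable_mul_test isOpen_ball (Complex.continuous_im.comp_continuousOn hc)
        (hf.fderiv_apply Complex.I)
      refine ((h1.add h2).congr (Eventually.of_forall fun z => ?_)).indicator hWo.measurableSet
      simp [dot, grad]
      ring
    have hts : ∀ L : ℂ →L[ℝ] ℝ, IsTest B fun z => L (h z) * θ z := fun L =>
      ⟨contDiff_mul_test isOpen_ball (L.contDiff.comp_contDiffOn hhs) hθ, hθ.2.1.mul_left,
        tsupport_mul_subset_right.trans hθ.2.2⟩
    have ea : (fun z => dot (grad (W.indicator fun z => Complex.reCLM (h z) * θ z) z)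
        (fderiv ℝ g z 1)) =ᵐ[volume] fun z => W.indicator
          (fun z => dot (grad (fun w => Complex.reCLM (h w) * θ w) z) (fderiv ℝ g z 1)) z :=
      ga.mono fun z hz => by
        dsimp only
        rw [hz]
        by_cases hzW : z ∈ W <;> simp [hzW, dot]
    have eb : (fun z => dot (grad (W.indicator fun z => Complex.imCLM (h z) * θ z) z)
        (fderiv ℝ g z Complex.I)) =ᵐ[volume] fun z => W.indicator
          (fun z => dot (grad (fun w => Complex.imCLM (h w) * θ w) z)
            (fderiv ℝ g z Complex.I)) z :=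
      gb.mono fun z hz => by
        dsimp only
        rw [hz]
        by_cases hzW : z ∈ W <;> simp [hzW, dot]
    rw [integral_congr_ae ea, integral_congr_ae eb,
      ← integral_add (hmemW (hts _) 1) (hmemW (hts _) Complex.I)] at key
    rw [← key, ← integral_indicator hWo.measurableSet]
    refine integral_congr_ae (Eventually.of_forall fun z => ?_)
    by_cases hzW : z ∈ W
    · simp only [indicator_of_mem hzW, Complex.reCLM_apply, Complex.imCLM_apply]
      exact (hpt z hzW).symm
    · simp [hzW]
  rcases const_of_weak_grad_zero hW hWo hweak with h0 | h1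
  · exfalso
    refine absurd h0 (ne_of_gt ?_)
    rw [inter_eq_self_of_subset_right ((connectedComponentIn_subset _ _).trans sdiff_subset)]
    exact hWo.measure_pos _ ⟨p, mem_connectedComponentIn hp⟩
  · by_contra hqW
    refine absurd (measure_mono_null ?_ h1) (ne_of_gt (hUo.connectedComponentIn.measure_pos _
      ⟨q, mem_connectedComponentIn hq⟩ : 0 < volume (connectedComponentIn U q)))
    intro z hz
    refine ⟨(connectedComponentIn_subset _ _ hz).1, fun hzW => hqW ?_⟩
    rw [hWdef, connectedComponentIn_eq hzW, ← connectedComponentIn_eq hz]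
    exact mem_connectedComponentIn hq

/-- Every point of the part is critical for its field. -/
lemma fderiv_eq_zero_on_part (hW : WeylGoal) (hOff : OffCriticalGoal) {u : ℂ → ℝ}
    {K K₁ K₂ : Set ℂ} {χ : ℂ → ℝ} {g : ℂ → ℂ} (h : Split u K K₁ K₂ χ) (hred : IsReduced K)
    (hg : IsPotentialField K₂ᶜ g)
    (horth : ∀ φ, IsNearVariation K χ φ → ∀ e : ℂ, ∫ x, dot (grad φ x) (fderiv ℝ g x e) = 0) :
    ∀ y ∈ K₁, fderiv ℝ g y 1 = 0 := by
  classical
  intro y hy
  by_contra hne
  set U := interior {x | χ x = 1} ∩ K₂ᶜ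
  have hU : IsOpen U := isOpen_interior.inter h.closed₂.isOpen_compl
  have hyU : y ∈ U := ⟨subset_interior_iff_mem_nhdsSet.2 h.one hy,
    fun h2 => disjoint_left.1 (disjoint_of_split h) hy h2⟩
  have hc : ContinuousOn (fun x => fderiv ℝ g x 1) K₂ᶜ :=
    ((hg.2.2.1.fderiv_of_isOpen h.closed₂.isOpen_compl (m := ∞) le_rfl).clm_apply
      contDiffOn_const).continuousOn
  obtain ⟨r, hr, hrU⟩ := Metric.isOpen_iff.1
    ((hc.mono inter_subset_right).isOpen_inter_preimage hU isOpen_compl_singleton) y ⟨hyU, hne⟩
  have hsub : ball y r ⊆ interior {x | χ x = 1} ∩ K₂ᶜ := fun z hz => (hrU hz).1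
  have hne' : ∀ x ∈ ball y r, fderiv ℝ g x 1 ≠ 0 := fun z hz => (hrU hz).2
  have hpre := isPreconnected_ball_sdiff hW h.reg h.closed₂ hg horth hsub hne'
  set B := ball y r with hBdef
  have hKo : IsOpen Kᶜ := h.reg.isClosed.isOpen_compl
  have hnull := h.reg.null
  -- a primitive of the gradient on the disk
  obtain ⟨g₀, hg₀, hgu⟩ := fieldGoal hW B isOpen_ball (grad u)
    (locallyIntegrableOn_of_ball isOpen_ball h.reg.memLp)
    fun θ hθ => ⟨h.reg.euler hθ.1.contDiffOn hθ.2.1 (memLp_grad_test (hθ.mono (subset_univ _))),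
      hOff u K K₁ K₂ χ g h hg horth θ (hθ.mono (hsub.trans inter_subset_right))
        fun x hx => hne' x (hθ.2.2 hx)⟩
  have hgu' : EqOn (grad u) g₀ (B ∩ Kᶜ) :=
    Measure.eqOn_open_of_ae_eq (ae_restrict_of_ae_restrict_of_subset inter_subset_left hgu)
      (isOpen_ball.inter hKo) ((contDiffOn_grad hKo h.reg.smooth).continuousOn.mono
        inter_subset_right) (hg₀.2.2.1.continuousOn.mono inter_subset_left)
  set wf : ℂ → ℂ →L[ℝ] ℝ := fun z => dotL (g₀ z)
  have hwfs : ContDiffOn ℝ ∞ wf B := dotL.contDiff.comp_contDiffOn hg₀.2.2.1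
  obtain ⟨W₀, hW₀⟩ := (convex_ball y r).exists_forall_hasFDerivAt_of_fderiv_symmetric isOpen_ball
    (hwfs.differentiableOn (by simp)) fun z hz a b => by
      have hd : fderiv ℝ wf z = dotL.comp (fderiv ℝ g₀ z) :=
        (dotL.hasFDerivAt.comp z (hg₀.differentiableAt isOpen_ball hz).hasFDerivAt).fderiv
      have h' := (hg₀.2.2.2 z hz).1
      simp only [hd, ContinuousLinearMap.comp_apply, dotL_apply, dir_decomp (fderiv ℝ g₀ z) a,
        dir_decomp (fderiv ℝ g₀ z) b]
      simp only [dot, Complex.add_re, Complex.add_im, Complex.smul_re, Complex.smul_im, smul_eq_mul]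
      linear_combination (b.im * a.re - a.im * b.re) * h'
  have hWd : ∀ z ∈ B, DifferentiableAt ℝ W₀ z := fun z hz => (hW₀ z hz).differentiableAt
  have hWs : ContDiffOn ℝ ∞ W₀ B := by
    refine (contDiffOn_infty_iff_fderiv_of_isOpen isOpen_ball).2
      ⟨fun z hz => (hWd z hz).differentiableWithinAt, hwfs.congr fun z hz => (hW₀ z hz).fderiv⟩
  have hgW : ∀ z ∈ B, grad W₀ z = g₀ z := fun z hz => by
    simp [grad, (hW₀ z hz).fderiv, wf, dotL_apply, dot]
  obtain ⟨k, hk⟩ := (isOpen_ball.sdiff h.reg.isClosed).exists_is_const_of_fderiv_eq_zero hpre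
    (f := fun z => u z - W₀ z)
    (fun z hz => ((((h.reg.smooth z hz.2).contDiffAt (hKo.mem_nhds hz.2)).differentiableAt
      (by simp)).sub (hWd z hz.1)).differentiableWithinAt) fun z hz => by
      refine fderiv_eq_zero_of_grad ?_
      rw [grad_sub (((h.reg.smooth z hz.2).contDiffAt (hKo.mem_nhds hz.2)).differentiableAt
        (by simp)) (hWd z hz.1), hgW z hz.1, hgu' hz, sub_self]
  -- remove `K` in the disk
  set δ : ℂ → ℝ := fun z => if z ∈ ball y (r / 2) then W₀ z + k - u z else 0 with hδ
  have hhalf : ball y (r / 2) ⊆ B := ball_subset_ball (by linarith)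
  have hδK : ∀ z ∉ K, δ z = 0 := fun z hz => by
    simp only [hδ]
    split_ifs with hb
    · linarith [hk z ⟨hhalf hb, hz⟩]
    · rfl
  have hgδ : ∀ᵐ z : ℂ, grad δ z = 0 := by
    filter_upwards [measure_eq_zero_iff_ae_notMem.1 hnull] with z hz
    exact grad_eq_zero_outside h.reg.isClosed hδK hz
  set ρ := ‖y‖ + r with hρ
  have hball : ball y (r / 2) ⊆ closedBall (0 : ℂ) ρ := fun z hz => by
    rw [mem_closedBall_zero_iff]
    rw [mem_ball, dist_eq_norm] at hz
    linarith [norm_le_insert' z y]
  set m := Measure.hausdorffMeasure (X := ℂ) 1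
  set B' := ball (0 : ℂ) (ρ + 1)
  have hB' : ball y (r / 2) ⊆ B' := hball.trans (closedBall_subset_ball (by linarith))
  have hKfin : m (K ∩ B') ≠ ⊤ := h.reg.length_ne_top _
  set L := K \ ball y (r / 2)
  obtain ⟨p₀, hp₀B, hp₀K⟩ : ∃ p ∈ B, p ∉ K := by
    by_contra hh
    push Not at hh
    exact (Metric.measure_ball_pos volume y hr).ne' (measure_mono_null hh hnull)
  have hsep : KeepsSeparation K L B' := by
    refine keepsSeparation_of_label (fun z => if z ∈ K then connectedComponentIn Kᶜ p₀ else
      connectedComponentIn Kᶜ z) (fun z hz => ?_) fun z hz => if_neg fun hh => hz (Or.inr hh)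
    by_cases hzK : z ∈ K
    · have hzb : z ∈ ball y (r / 2) := by
        by_contra hzb
        exact hz ⟨hzK, hzb⟩
      filter_upwards [nhdsWithin_le_nhds (isOpen_ball.mem_nhds (hhalf hzb))] with w hw
      simp only [if_pos hzK]
      split_ifs with hwK
      · rfl
      · exact (connectedComponentIn_eq (hpre.subset_connectedComponentIn ⟨hp₀B, hp₀K⟩
          (fun a ha => ha.2) ⟨hw, hwK⟩)).symm
    · filter_upwards [nhdsWithin_le_nhds (hKo.connectedComponentIn.mem_nhds
        (mem_connectedComponentIn hzK))] with w hw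
      have hwK : w ∉ K := connectedComponentIn_subset _ _ hw
      simp only [if_neg hzK, if_neg hwK]
      exact (connectedComponentIn_eq hw).symm
  have key := h.reg.vary L δ ρ (h.reg.isClosed.sdiff isOpen_ball)
    (measure_mono_null sdiff_subset hnull) (fun z hz => ?_)
    (fun z hz => if_neg fun hb => hz (hball hb))
    (by
      ext z
      exact ⟨fun hz => ⟨hz.1.1, hz.2⟩, fun hz => ⟨⟨hz.1, fun hb => hz.2 (hball hb)⟩, hz.2⟩⟩)
    hsep (ne_top_of_le_ne_top hKfin (measure_mono (inter_subset_inter_left _ sdiff_subset)))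
    ((memLp_congr_ae hgδ).2 MemLp.zero')
  · have z1 : ∫ z, ‖grad δ z‖ ^ 2 = 0 :=
      integral_eq_zero_of_ae (hgδ.mono fun z hz => by simp [hz])
    have z2 : ∫ z, dot (grad u z) (grad δ z) = 0 :=
      integral_eq_zero_of_ae (hgδ.mono fun z hz => by simp [hz, dot])
    rw [z1, z2] at key
    have hsplit : m (L ∩ B') + m (K ∩ ball y (r / 2)) ≤ m (K ∩ B') := by
      rw [← measure_union ?_ (h.reg.isClosed.measurableSet.inter measurableSet_ball)]
      · exact measure_mono (union_subset (inter_subset_inter_left _ sdiff_subset)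
          (inter_subset_inter_right _ hB'))
      · exact disjoint_left.2 fun z hz hz' => hz.1.2 hz'.2
    have hpos := hred y (h.union ▸ Or.inl hy) (r / 2) (by linarith)
    have f1 : m (L ∩ B') ≠ ⊤ := ne_top_of_le_ne_top hKfin (le_self_add.trans hsplit)
    have f2 : m (K ∩ ball y (r / 2)) ≠ ⊤ := ne_top_of_le_ne_top hKfin (le_add_self.trans hsplit)
    have := ENNReal.toReal_mono hKfin hsplit
    rw [ENNReal.toReal_add f1 f2] at this
    linarith [ENNReal.toReal_pos hpos.ne' f2]
  · by_cases hb : z ∈ ball y (r / 2)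
    · refine (((hWs.add (contDiffOn_const (c := k))) z (hhalf hb)).contDiffAt
        (isOpen_ball.mem_nhds (hhalf hb))).congr_of_eventuallyEq ?_ |>.contDiffWithinAt
      filter_upwards [isOpen_ball.mem_nhds hb] with w hw
      simp only [hδ, if_pos hw]
      ring
    · have hzK : z ∉ K := fun hk' => hz ⟨hk', hb⟩
      refine ((h.reg.smooth z hzK).contDiffAt (hKo.mem_nhds hzK)).congr_of_eventuallyEq ?_
        |>.contDiffWithinAt
      filter_upwards [hKo.mem_nhds hzK] with w hw
      simp [hδK w hw]

/-- The field is constant next to the part. -/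
lemma fderiv_eq_zero_next_to_part (hW : WeylGoal) (hOff : OffCriticalGoal) {u : ℂ → ℝ}
    {K K₁ K₂ : Set ℂ} {χ : ℂ → ℝ} {g : ℂ → ℂ} (h : Split u K K₁ K₂ χ) (hred : IsReduced K)
    (hg : IsPotentialField K₂ᶜ g)
    (horth : ∀ φ, IsNearVariation K χ φ → ∀ e : ℂ, ∫ x, dot (grad φ x) (fderiv ℝ g x e) = 0)
    {z : ℂ} (htouch : (closure (connectedComponentIn Kᶜ z) ∩ K₁).Nonempty) :
    ∀ y ∈ connectedComponentIn Kᶜ z, fderiv ℝ g y = 0 := by
  obtain ⟨x, hxD, hx₁⟩ := htouch
  set D := connectedComponentIn Kᶜ z
  have hxK₂ : x ∈ K₂ᶜ := fun h2 => disjoint_left.1 (disjoint_of_split h) hx₁ h2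
  set O := connectedComponentIn K₂ᶜ x
  have hO : IsOpen O := h.closed₂.isOpen_compl.connectedComponentIn
  have hOsub : O ⊆ K₂ᶜ := connectedComponentIn_subset _ _
  have hxO : x ∈ O := mem_connectedComponentIn hxK₂
  have hDO : D ⊆ O := fun y hy => by
    have hp : IsPreconnected (insert x D) :=
      isPreconnected_connectedComponentIn.subset_closure (subset_insert _ _)
        (insert_subset hxD subset_closure)
    refine hp.subset_connectedComponentIn (mem_insert _ _) ?_ (mem_insert_of_mem _ hy)
    refine insert_subset hxK₂ fun w hw hw2 => ?_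
    exact connectedComponentIn_subset _ _ hw (h.union ▸ Or.inr hw2)
  set F : ℂ → ℂ := fun w => conj (g w)
  have hFd : DifferentiableOn ℂ F O :=
    (differentiableOn_conj_field h.closed₂.isOpen_compl hg).mono hOsub
  have hdg : ∀ w ∈ O, ∀ e, fderiv ℝ g w e = conj (deriv F w * e) := by
    intro w hw e
    have h := fderiv_conj_apply (hFd.differentiableAt (hO.mem_nhds hw)) e
    simpa [F, Complex.conj_conj] using h
  have han : AnalyticOnNhd ℂ (deriv F) O := (hFd.deriv hO).analyticOnNhd hO
  have hfreq : ∃ᶠ w in 𝓝[≠] x, deriv F w = 0 := by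
    rw [frequently_nhdsWithin_iff, frequently_nhds_iff]
    intro V hxV hVo
    obtain ⟨r, hr, hrV⟩ := Metric.isOpen_iff.1 (hVo.inter hO) x ⟨hxV, hxO⟩
    obtain ⟨w, hwK, hwne⟩ : ∃ w ∈ K ∩ ball x r, w ≠ x := by
      have := Measure.nullSingletonClass_hausdorff ℂ (zero_lt_one' ℝ)
      by_contra hh
      push Not at hh
      have h0 : Measure.hausdorffMeasure 1 (K ∩ ball x r) = 0 :=
        measure_mono_null (fun w hw => hh w hw) (measure_singleton x)
      exact (hred x (h.union ▸ Or.inl hx₁) r hr).ne' h0
    have hwO : w ∈ O := (hrV hwK.2).2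
    have hw₁ : w ∈ K₁ := (h.union.symm ▸ hwK.1 : w ∈ K₁ ∪ K₂).resolve_right (hOsub hwO)
    have h0 := fderiv_eq_zero_on_part hW hOff h hred hg horth w hw₁
    rw [hdg w hwO] at h0
    exact ⟨w, (hrV hwK.2).1, by simpa using h0, hwne⟩
  have hzero := han.eqOn_zero_of_preconnected_of_frequently_eq_zero
    isPreconnected_connectedComponentIn hxO hfreq
  intro y hy
  refine ContinuousLinearMap.ext fun e => ?_
  rw [hdg y (hDO hy), hzero (hDO hy)]
  simp

/-- The splitting seen from the other part. -/
lemma Layers.swap {u : ℂ → ℝ} {K K₁ K₂ : Set ℂ} {χ : ℂ → ℝ} {C : ℝ} {S P : ℕ → ℂ → ℂ}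
    (h : Split u K K₁ K₂ χ) (hL : Layers u K K₁ K₂ C S P) :
    Layers u K K₂ K₁ (8 * Real.pi + 2 * |C|) P S := by
  have hae : ∀ k, (fun x => grad u x - S k x) =ᵐ[volume.restrict (ball 0 (2 * rad k))] P k := by
    intro k
    filter_upwards [ae_restrict_of_ae (measure_eq_zero_iff_ae_notMem.1 h.reg.null),
      ae_restrict_mem measurableSet_ball] with x hx hxb
    rw [← hL.sum k x ⟨hxb, hx⟩]; ring
  refine ⟨hL.potP, hL.potS, fun k x hx => by rw [add_comm]; exact hL.sum k x hx,
    fun k => ((h.reg.memLp _).sub (hL.memLp k)).ae_eq (hae k), fun k => ?_⟩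
  have hr : 1 ≤ rad k := one_le_pow₀ (by norm_num)
  have i1 : IntegrableOn (fun x => 2 * ‖grad u x‖ ^ 2) (ball (0 : ℂ) (2 * rad k)) :=
    (h.reg.memLp _).norm.integrable_sq.const_mul 2
  have i2 : IntegrableOn (fun x => 2 * ‖S k x‖ ^ 2) (ball (0 : ℂ) (2 * rad k)) :=
    (hL.memLp k).norm.integrable_sq.const_mul 2
  refine (integral_mono_of_nonneg (Eventually.of_forall fun x => sq_nonneg _) (i1.add i2)
    ((hae k).mono fun x hx => ?_)).trans ?_
  · simp only [Pi.add_apply, ← hx]
    nlinarith [norm_sub_le (grad u x) (S k x), norm_nonneg (grad u x - S k x),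
      sq_nonneg (‖grad u x‖ - ‖S k x‖)]
  · simp only [Pi.add_apply]
    rw [integral_add i1 i2, integral_const_mul, integral_const_mul]
    have hd := (h.density 0 (2 * rad k) (by linarith)).2
    have hb := hL.bound k
    have hr2 : rad k ≤ rad k ^ 2 := by nlinarith
    nlinarith [le_abs_self C, Real.pi_pos]

/-- Rigidity. -/
theorem rigidGoal (hW : WeylGoal) (hLim : LimitGoal) (hGain : GainGoal) (hOff : OffCriticalGoal) :
    RigidGoal := by
  intro u K K₁ K₂ χ C S P h hred hpieces hL z hz ht₁ ht₂
  have h' : Split u K K₂ K₁ fun x => 1 - χ x :=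
    ⟨h.reg, h.density, by rw [union_comm, h.union], h.closed₂, h.closed₁,
      contDiff_const.sub h.smooth,
      fun x => ⟨by linarith [(h.range x).2], by linarith [(h.range x).1]⟩,
      h.zero.mono fun x hx => by simp [hx], h.one.mono fun x hx => by simp [hx]⟩
  have hL' := hL.swap h
  obtain ⟨g, s, hg, -, -, hgl⟩ := hLim u K K₁ K₂ χ C S P h hL
  obtain ⟨g', s', hg', -, -, hgl'⟩ := hLim u K K₂ K₁ _ _ P S h' hL'
  have d := fderiv_eq_zero_next_to_part hW hOff h hred hg
    (hGain u K K₁ K₂ χ C S P g h hpieces hL hg hgl) ht₁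
  have d' := fderiv_eq_zero_next_to_part hW hOff h' hred hg'
    (hGain u K K₂ K₁ _ _ P S g' h' hpieces hL' hg' hgl') ht₂
  set D := connectedComponentIn Kᶜ z
  have hKo : IsOpen Kᶜ := h.reg.isClosed.isOpen_compl
  obtain ⟨c, hc⟩ := hKo.connectedComponentIn.exists_is_const_of_fderiv_eq_zero
    isPreconnected_connectedComponentIn (f := grad u)
    (fun y hy => ((contDiffOn_grad hKo h.reg.smooth).differentiableOn (by simp)).mono
      (connectedComponentIn_subset _ _) y hy) fun y hy => by
      have hyK : y ∉ K := connectedComponentIn_subset _ _ hy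
      have hy₁ : y ∉ K₁ := fun hh => hyK (h.union ▸ Or.inl hh)
      have hy₂ : y ∉ K₂ := fun hh => hyK (h.union ▸ Or.inr hh)
      refine ContinuousLinearMap.ext fun e => ?_
      have l1 := (hgl {y} isCompact_singleton (by simpa using hy₂) e).tendsto_at (mem_singleton y)
      have l2 := (hgl' {y} isCompact_singleton (by simpa using hy₁) e).tendsto_at (mem_singleton y)
      simp only [d y hy, d' y hy, zero_apply] at l1 l2
      refine tendsto_nhds_unique (tendsto_const_nhds.congr' ?_) (by simpa using l1.add l2)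
      obtain ⟨j, hj⟩ := exists_rad_ge (‖y‖ + 1)
      filter_upwards [eventually_ge_atTop j] with k hk
      have hyb : y ∈ ball (0 : ℂ) (2 * rad k) \ K :=
        ⟨mem_ball_zero_iff.2 (by linarith [rad_mono hk, rad_pos k]), hyK⟩
      have hev : (fun x => S k x + P k x) =ᶠ[𝓝 y] grad u := by
        filter_upwards [(isOpen_ball.sdiff h.reg.isClosed).mem_nhds hyb] with x hx
        exact hL.sum k x hx
      rw [← hev.fderiv_eq, fderiv_fun_add
        ((hL.potS k).differentiableAt (isOpen_ball.sdiff h.closed₁) ⟨hyb.1, hy₁⟩)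
        ((hL.potP k).differentiableAt (isOpen_ball.sdiff h.closed₂) ⟨hyb.1, hy₂⟩)]
      simp [add_comm]
  intro y hy
  rw [hc y hy, hc z (mem_connectedComponentIn hz)]

end Vale.Agent.P128.Connected
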