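import Vale.Agent.P128.Connected.Separating.Interface
import Vale.Agent.P128.Connected.SecondVar
import Vale.Agent.P128.Connected.Gain
import Vale.Agent.P128.Islands.Topology

/-!
# Moving one component of the singular set

`A` is a closed connected part of `K` with closed rest `B = K \ A`, and `O` is the component of
`Bᶜ` containing `A`. The competitor moves the points of `A` by `ψ • a`, keeps what stays in `O`,
and does not change anything outside `O`. As the cutoff spreads out, the second order cost tends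
to zero, so nothing of the moved set may leave `O`: the set `O` is dense.
-/

noncomputable section

namespace Vale.Agent.P128.Connected

open MeasureTheory Filter Metric Set Islands
open scoped Topology ENNReal NNReal ContDiff

/-- Cone pieces pass to measurable subsets. -/
lemma ConePieces.mono {S T : Set ℂ} (h : ConePieces T) (hS : MeasurableSet S) (hST : S ⊆ T) :
    ConePieces S := by
  intro η hη d hd
  obtain ⟨E, τ, hm, hdj, hτ, hE, hc, hnull⟩ := h η hη d hd
  refine ⟨fun i => E i ∩ S, τ, fun i => (hm i).inter hS,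
    fun i j hij => (hdj hij).mono inter_subset_left inter_subset_left, hτ,
    fun i => inter_subset_right, fun i x hx y hy => hc i x hx.1 y hy.1, ?_⟩
  refine measure_mono_null ?_ hnull
  rintro x ⟨hx, hn⟩
  refine ⟨hST hx, fun h' => hn ?_⟩
  obtain ⟨i, hi⟩ := mem_iUnion.1 h'
  exact mem_iUnion.2 ⟨i, hi, hx⟩

lemma exists_lipschitz_shift {ζ : ℂ → ℝ} (hζ : IsTest univ ζ) (a : ℂ) :
    ∃ C, LipschitzWith C (shift a ζ) := by
  obtain ⟨C, hC⟩ := hζ.1.lipschitzWith_of_hasCompactSupport hζ.2.1 (by simp)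
  exact ⟨_, LipschitzWith.id.add ((ContinuousLinearMap.toSpanSingleton ℝ a).lipschitz.comp hC)⟩

lemma shift_length_ne_top {ζ : ℂ → ℝ} (hζ : IsTest univ ζ) (a : ℂ) {S : Set ℂ}
    (h : Measure.hausdorffMeasure 1 S ≠ ⊤) :
    Measure.hausdorffMeasure 1 (shift a ζ '' S) ≠ ⊤ := by
  obtain ⟨C, hC⟩ := exists_lipschitz_shift hζ a
  exact ne_top_of_le_ne_top
    (ENNReal.mul_ne_top (ENNReal.rpow_ne_top_of_nonneg zero_le_one ENNReal.coe_ne_top) h)
    (hC.hausdorffMeasure_image_le zero_le_one _)

/-- The length of two opposite moved sets. -/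
lemma length_pair {S : Set ℂ} (hP : ConePieces S) (hfin : Measure.hausdorffMeasure 1 S ≠ ⊤)
    {ζ : ℂ → ℝ} (hζ : IsTest univ ζ) {B : ℝ} (hB : 0 ≤ B) (hb : ∀ x, ‖grad ζ x‖ ≤ B)
    (a : ℂ) :
    (Measure.hausdorffMeasure 1 (shift a ζ '' S)).toReal +
      (Measure.hausdorffMeasure 1 (shift (-a) ζ '' S)).toReal ≤
      (2 + ‖a‖ ^ 2 * B ^ 2) * (Measure.hausdorffMeasure 1 S).toReal := by
  set m := (Measure.hausdorffMeasure 1 : Measure ℂ)
  obtain ⟨M, hM⟩ := (hζ.1.fderiv_right (m := ∞) le_rfl).lipschitzWith_of_hasCompactSupport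
    (hζ.2.1.fderiv ℝ) (by simp)
  set k : ℝ := 1 + ‖a‖ * B + ‖a‖ * M with hk
  have hk0 : 0 < k := by positivity
  refine le_of_forall_pos_le_add fun ε hε => ?_
  set η := ε / (2 * k * ((m S).toReal + 1)) with hηd
  have hη : 0 < η := by positivity
  obtain ⟨E, τ, hEm, hEd, hτ, hES, hcone, hrest⟩ := hP η hη η hη
  choose! x₀ hx₀ using fun i (h : (E i).Nonempty) => h
  set β : ℕ → ℝ := fun i => dot (grad ζ (x₀ i)) (τ i) with hβ
  set Λ : ℂ → ℕ → ℝ := fun c i => 1 + dot c (τ i) * β i + ‖c‖ ^ 2 * β i ^ 2 / 2 + η * k with hΛ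
  have hΛ0 : ∀ c i, 0 ≤ Λ c i := fun c i => by
    have := (norm_nonneg _).trans (norm_add_smul_le (a := c) (hτ i) (β i))
    simp only [hΛ]
    positivity
  have hstr : ∀ c : ℂ, ‖c‖ = ‖a‖ → ∀ i, LipschitzOnWith (Λ c i).toNNReal (shift c ζ) (E i) := by
    intro c hc i
    refine lipschitzOnWith_iff_norm_sub_le.2 fun y hy x hx => ?_
    rw [Real.coe_toNNReal _ (hΛ0 c i)]
    have h0 := hx₀ i ⟨x, hx⟩
    obtain ⟨-, hr⟩ := hcone i x hx y hy
    set w := y - x with hw
    set s := dot w (τ i)
    set r := w - s • τ i with hr'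
    have hsub : |ζ y - ζ x - dot (grad ζ (x₀ i)) w| ≤ M * η * ‖w‖ := by
      rw [← fderiv_eq_dot_grad, ← Real.norm_eq_abs]
      refine (convex_closedBall (x₀ i) η).norm_image_sub_le_of_norm_fderiv_le' (𝕜 := ℝ)
        (fun z _ => hζ.1.differentiable (by simp) z) (fun z hz => ?_)
        (by simpa [dist_eq_norm] using (hcone i _ h0 x hx).1)
        (by simpa [dist_eq_norm] using (hcone i _ h0 y hy).1)
      rw [mem_closedBall] at hz
      refine le_trans ?_ (mul_le_mul_of_nonneg_left hz M.coe_nonneg)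
      simpa [dist_eq_norm] using hM.dist_le_mul z (x₀ i)
    have e : shift c ζ y - shift c ζ x = s • (τ i + β i • c) + (r +
        dot (grad ζ (x₀ i)) r • c + (ζ y - ζ x - dot (grad ζ (x₀ i)) w) • c) := by
      simp only [hr', hw, hβ, shift]
      apply Complex.ext <;> simp [dot] <;> ring
    have hs : |s| ≤ ‖w‖ := (abs_dot_le _ _).trans (by rw [hτ i, mul_one])
    have n1 : ‖s • (τ i + β i • c)‖ ≤ (Λ c i - η * k) * ‖w‖ := by
      rw [norm_smul, Real.norm_eq_abs, mul_comm]
      refine mul_le_mul ?_ hs (abs_nonneg _) ?_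
      · simpa [hΛ] using norm_add_smul_le (a := c) (hτ i) (β i)
      · simpa [hΛ] using (norm_nonneg _).trans (norm_add_smul_le (a := c) (hτ i) (β i))
    have n2 : ‖dot (grad ζ (x₀ i)) r • c‖ ≤ ‖a‖ * B * η * ‖w‖ := by
      rw [norm_smul, Real.norm_eq_abs, hc]
      calc |dot (grad ζ (x₀ i)) r| * ‖a‖ ≤ B * (η * ‖w‖) * ‖a‖ := by
            gcongr
            exact (abs_dot_le _ _).trans (mul_le_mul (hb _) hr (norm_nonneg _) hB)
        _ = _ := by ring
    have n3 : ‖(ζ y - ζ x - dot (grad ζ (x₀ i)) w) • c‖ ≤ ‖a‖ * M * η * ‖w‖ := by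
      rw [norm_smul, Real.norm_eq_abs, hc]
      calc |ζ y - ζ x - dot (grad ζ (x₀ i)) w| * ‖a‖ ≤ M * η * ‖w‖ * ‖a‖ :=
            mul_le_mul_of_nonneg_right hsub (norm_nonneg _)
        _ = _ := by ring
    rw [e]
    refine (norm_add_le _ _).trans ?_
    refine (add_le_add n1 (norm_add₃_le.trans (add_le_add (add_le_add hr n2) n3))).trans
      (le_of_eq ?_)
    ring
  have hcov : ∀ c : ℂ, ‖c‖ = ‖a‖ →
      m (shift c ζ '' S) ≤ ∑' i, ENNReal.ofReal (Λ c i) * m (E i) := by
    intro c hc
    obtain ⟨C, hC⟩ := exists_lipschitz_shift hζ c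
    calc m (shift c ζ '' S)
        ≤ m (shift c ζ '' (⋃ i, E i)) + m (shift c ζ '' (S \ ⋃ i, E i)) := by
          refine le_trans (measure_mono ?_) (measure_union_le _ _)
          rw [← image_union]
          exact image_mono fun x hx => (em (x ∈ ⋃ i, E i)).imp id fun h => ⟨hx, h⟩
      _ = m (shift c ζ '' (⋃ i, E i)) := by
          have := hC.hausdorffMeasure_image_le zero_le_one (S \ ⋃ i, E i)
          rw [hrest, mul_zero] at this
          rw [nonpos_iff_eq_zero.1 this, add_zero]
      _ ≤ ∑' i, m (shift c ζ '' E i) := by rw [image_iUnion]; exact measure_iUnion_le _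
      _ ≤ _ := ENNReal.tsum_le_tsum fun i => by
          have := (hstr c hc i).hausdorffMeasure_image_le (d := 1) zero_le_one
          rwa [ENNReal.rpow_one] at this
  set c₀ := 2 + ‖a‖ ^ 2 * B ^ 2 + 2 * (η * k) with hc₀
  have htot : m (shift a ζ '' S) + m (shift (-a) ζ '' S) ≤ ENNReal.ofReal c₀ * m S := by
    refine (add_le_add (hcov a rfl) (hcov (-a) (norm_neg a))).trans ?_
    rw [← ENNReal.tsum_add]
    calc ∑' i, (ENNReal.ofReal (Λ a i) * m (E i) + ENNReal.ofReal (Λ (-a) i) * m (E i))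
        ≤ ∑' i, ENNReal.ofReal c₀ * m (E i) := by
          refine ENNReal.tsum_le_tsum fun i => ?_
          rw [← add_mul, ← ENNReal.ofReal_add (hΛ0 _ _) (hΛ0 _ _)]
          gcongr
          have hβB : β i ^ 2 ≤ B ^ 2 := by
            rw [← sq_abs]
            exact pow_le_pow_left₀ (abs_nonneg _)
              ((abs_dot_le _ _).trans (by rw [hτ i, mul_one]; exact hb _)) 2
          have h1 := mul_le_mul_of_nonneg_left hβB (sq_nonneg ‖a‖)
          have h2 : dot (-a) (τ i) = -dot a (τ i) := by simp [dot]; ring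
          simp only [hΛ, hc₀, norm_neg, h2]
          linarith
      _ = ENNReal.ofReal c₀ * m (⋃ i, E i) := by
          rw [ENNReal.tsum_mul_left, measure_iUnion hEd hEm]
      _ ≤ _ := by gcongr; exact iUnion_subset hES
  have hne : ∀ c, m (shift c ζ '' S) ≠ ⊤ := fun c => shift_length_ne_top hζ c hfin
  have hreal := ENNReal.toReal_mono (ENNReal.mul_ne_top ENNReal.ofReal_ne_top hfin) htot
  rw [ENNReal.toReal_add (hne _) (hne _), ENNReal.toReal_mul,
    ENNReal.toReal_ofReal (by positivity)] at hreal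
  refine hreal.trans ?_
  have : 2 * (η * k) * (m S).toReal ≤ ε := by
    rw [hηd]
    field_simp
    nlinarith [ENNReal.toReal_nonneg (a := m S)]
  rw [hc₀, add_mul]
  linarith

/-- The pullback density of two opposite translations. -/
lemma pullVal_pair {a b X : ℂ} {B : ℝ} (hb : ‖b‖ ≤ B) (ha : ‖a‖ * B ≤ 1 / 2) :
    pullVal a b X + pullVal (-a) b X ≤ 2 * dot X X + 4 * ‖a‖ ^ 2 * B ^ 2 * dot X X := by
  have hB : 0 ≤ B := (norm_nonneg _).trans hb
  set z := dot a b with hz
  have hz2 : |z| ≤ 1 / 2 :=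
    ((abs_dot_le _ _).trans (mul_le_mul_of_nonneg_left hb (norm_nonneg _))).trans ha
  obtain ⟨hlo, hhi⟩ := abs_le.1 hz2
  have hX : dot a X ^ 2 ≤ ‖a‖ ^ 2 * dot X X := by
    rw [← norm_sq_eq_dot, ← sq_abs, ← mul_pow]
    exact pow_le_pow_left₀ (abs_nonneg _) (abs_dot_le _ _) 2
  have hbb : 0 ≤ dot b b ∧ dot b b ≤ B ^ 2 := by
    rw [← norm_sq_eq_dot]
    exact ⟨sq_nonneg _, pow_le_pow_left₀ (norm_nonneg _) hb 2⟩
  have e : pullVal a b X + pullVal (-a) b X =
      2 * dot X X + dot b b * dot a X ^ 2 * ((1 + z)⁻¹ + (1 - z)⁻¹) := by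
    have h1 : dot (-a) b = -z := by simp [hz, dot]; ring
    have h2 : dot (-a) X = -dot a X := by simp [dot]; ring
    simp only [pullVal, h1, h2, ← hz]
    ring
  have hinv : (1 + z)⁻¹ + (1 - z)⁻¹ ≤ 4 := by
    have i1 : (1 + z)⁻¹ ≤ 2 := (inv_le_iff_one_le_mul₀ (by linarith)).2 (by linarith)
    have i2 : (1 - z)⁻¹ ≤ 2 := (inv_le_iff_one_le_mul₀ (by linarith)).2 (by linarith)
    linarith
  rw [e]
  have : dot b b * dot a X ^ 2 ≤ B ^ 2 * (‖a‖ ^ 2 * dot X X) :=
    mul_le_mul hbb.2 hX (sq_nonneg _) (sq_nonneg _)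
  nlinarith [mul_le_mul this hinv (by
      have := inv_pos.2 (show (0 : ℝ) < 1 + z by linarith)
      have := inv_pos.2 (show (0 : ℝ) < 1 - z by linarith)
      linarith) (mul_nonneg (sq_nonneg B) ((sq_nonneg (dot a X)).trans hX))]

/-- A component of an open set is relatively closed. -/
lemma mem_component_of_closure {U : Set ℂ} (hU : IsOpen U) {x z : ℂ}
    (hz : z ∈ closure (connectedComponentIn U x)) (hzU : z ∈ U) :
    z ∈ connectedComponentIn U x := by
  obtain ⟨w, hw1, hw2⟩ := mem_closure_iff.1 hz (connectedComponentIn U z)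
    hU.connectedComponentIn (mem_connectedComponentIn hzU)
  rw [connectedComponentIn_eq hw2, ← connectedComponentIn_eq hw1]
  exact mem_connectedComponentIn hzU

/-- The function which is moved: `u` on `O`, constant on the components of `Aᶜ` leaving `O`. -/
def side (u : ℂ → ℝ) (A O : Set ℂ) (x : ℂ) : ℝ :=
  open Classical in
  if x ∈ O then u x else
    if h : (connectedComponentIn Aᶜ x ∩ O).Nonempty then u h.choose else 0

variable {u : ℂ → ℝ} {K A O : Set ℂ}

/-- The data of the translation argument. -/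
structure Lone (u : ℂ → ℝ) (K A O : Set ℂ) : Prop where
  reg : Reg u K
  closed : IsClosed A
  rest : IsClosed (K \ A)
  subset : A ⊆ K
  comp : ∃ x₀ ∈ A, O = connectedComponentIn (K \ A)ᶜ x₀
  inside : A ⊆ O
  flat : ∀ x ∉ K, (closure (connectedComponentIn Kᶜ x) ∩ A).Nonempty →
    (closure (connectedComponentIn Kᶜ x) ∩ (K \ A)).Nonempty → grad u x = 0

namespace Lone

lemma isOpen (h : Lone u K A O) : IsOpen O := by
  obtain ⟨x₀, -, rfl⟩ := h.comp
  exact h.rest.isOpen_compl.connectedComponentIn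

lemma subset_compl (h : Lone u K A O) : O ⊆ (K \ A)ᶜ := by
  obtain ⟨x₀, -, rfl⟩ := h.comp
  exact connectedComponentIn_subset _ _

lemma mem_of_closure (h : Lone u K A O) {z : ℂ} (hz : z ∈ closure O) (hz' : z ∉ K \ A) :
    z ∈ O := by
  obtain ⟨x₀, -, e⟩ := h.comp
  rw [e] at hz ⊢
  exact mem_component_of_closure h.rest.isOpen_compl hz hz'

lemma notMem (h : Lone u K A O) {x : ℂ} (hx : x ∈ O) (hA : x ∉ A) : x ∉ K :=
  fun hK => h.subset_compl hx ⟨hK, hA⟩

lemma join (h : Lone u K A O) {x y : ℂ} (hx : x ∉ K) (hyA : y ∈ connectedComponentIn Aᶜ x)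
    (hyB : y ∈ connectedComponentIn (K \ A)ᶜ x) : y ∈ connectedComponentIn Kᶜ x := by
  have e : Kᶜ = Aᶜ ∩ (K \ A)ᶜ := by
    rw [← compl_union, union_sdiff_cancel h.subset]
  rw [e]
  refine Plane.mem_component_inter h.closed.isOpen_compl h.rest.isOpen_compl ?_
    ⟨fun hA => hx (h.subset hA), fun hB => hx hB.1⟩
    ⟨connectedComponentIn_subset _ _ hyA, connectedComponentIn_subset _ _ hyB⟩ hyA hyB
  rw [← compl_inter, disjoint_iff_inter_eq_empty.1 disjoint_sdiff_right, compl_empty]

/-- On a component of `Aᶜ` leaving `O` all values of `u` in `O` are equal. -/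
lemma const (h : Lone u K A O) {p y z : ℂ} (hp : p ∉ O)
    (hy : y ∈ connectedComponentIn Aᶜ p ∩ O) (hz : z ∈ connectedComponentIn Aᶜ p ∩ O) :
    u z = u y := by
  have hyK : y ∉ K := h.notMem hy.2 (connectedComponentIn_subset _ _ hy.1)
  set D := connectedComponentIn Kᶜ y with hD
  have hQ : connectedComponentIn Aᶜ p = connectedComponentIn Aᶜ y := connectedComponentIn_eq hy.1
  obtain ⟨x₀, hx₀, hO⟩ := h.comp
  have hOy : O = connectedComponentIn (K \ A)ᶜ y := by
    rw [hO] at hy ⊢
    exact connectedComponentIn_eq hy.2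
  have hzD : z ∈ D := h.join hyK (hQ ▸ hz.1) (hOy ▸ hz.2)
  have hDO : D ⊆ O := by
    rw [hOy]
    exact connectedComponentIn_mono y (compl_subset_compl.2 sdiff_subset)
  have hcl : ∀ w ∈ closure D, w ∉ K → w ∈ D := fun w hw hwK =>
    mem_component_of_closure h.reg.isClosed.isOpen_compl hw hwK
  have hDo : IsOpen D := h.reg.isClosed.isOpen_compl.connectedComponentIn
  have hdisj : Disjoint D (closure D)ᶜ :=
    disjoint_left.2 fun w hw hn => hn (subset_closure hw)
  have hyD : y ∈ D := mem_connectedComponentIn hyK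
  have hA : (closure D ∩ A).Nonempty := by
    by_contra hn
    have hcov : O ⊆ D ∪ (closure D)ᶜ := fun w hw => by
      by_cases hwD : w ∈ closure D
      · exact Or.inl (hcl w hwD (h.notMem hw fun hwA => hn ⟨w, hwD, hwA⟩))
      · exact Or.inr hwD
    have hOD : O ⊆ D := by
      refine IsPreconnected.subset_left_of_subset_union hDo isClosed_closure.isOpen_compl hdisj
        hcov ⟨y, hy.2, hyD⟩ ?_
      rw [hO]; exact isPreconnected_connectedComponentIn
    exact connectedComponentIn_subset _ _ (hOD (h.inside hx₀)) (h.subset hx₀)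
  have hB : (closure D ∩ (K \ A)).Nonempty := by
    by_contra hn
    have hcov : connectedComponentIn Aᶜ p ⊆ D ∪ (closure D)ᶜ := fun w hw => by
      by_cases hwD : w ∈ closure D
      · exact Or.inl (hcl w hwD fun hwK => hn ⟨w, hwD, hwK, connectedComponentIn_subset _ _ hw⟩)
      · exact Or.inr hwD
    have hQD := IsPreconnected.subset_left_of_subset_union hDo isClosed_closure.isOpen_compl hdisj
      hcov ⟨y, hy.1, hyD⟩ isPreconnected_connectedComponentIn
    have hpA : p ∈ Aᶜ := connectedComponentIn_nonempty_iff.1 ⟨y, hy.1⟩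
    exact hp (hDO (hQD (mem_connectedComponentIn hpA)))
  obtain ⟨c, hc⟩ := hDo.exists_is_const_of_fderiv_eq_zero isPreconnected_connectedComponentIn
    ((h.reg.smooth.mono (connectedComponentIn_subset _ _)).differentiableOn (by simp))
    (fun w hw => by
      have e : connectedComponentIn Kᶜ w = D := (connectedComponentIn_eq hw).symm
      have hg := h.flat w (connectedComponentIn_subset _ _ hw) (e.symm ▸ hA) (e.symm ▸ hB)
      ext v
      rw [fderiv_eq_dot_grad, hg]
      simp [dot])
  rw [hc z hzD, hc y hyD]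

lemma side_eq (h : Lone u K A O) {x : ℂ} (hx : x ∈ O) : side u A O =ᶠ[𝓝 x] u := by
  filter_upwards [h.isOpen.mem_nhds hx] with y hy
  simp [side, hy]

/-- Near a point of `Aᶜ` outside `O` the moved function is constant. -/
lemma side_const (h : Lone u K A O) {x : ℂ} (hx : x ∈ Aᶜ) (hxO : x ∉ O) :
    ∃ c, side u A O =ᶠ[𝓝 x] fun _ => c := by
  classical
  refine ⟨side u A O x, ?_⟩
  filter_upwards [h.closed.isOpen_compl.connectedComponentIn.mem_nhds
    (mem_connectedComponentIn hx)] with z hz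
  have e : connectedComponentIn Aᶜ z = connectedComponentIn Aᶜ x :=
    (connectedComponentIn_eq hz).symm
  simp only [side, if_neg hxO]
  by_cases hzO : z ∈ O
  · have hne : (connectedComponentIn Aᶜ x ∩ O).Nonempty := ⟨z, hz, hzO⟩
    rw [if_pos hzO, dif_pos hne]
    exact h.const hxO hne.choose_spec ⟨hz, hzO⟩
  · rw [if_neg hzO]
    simp only [e]

lemma side_smooth (h : Lone u K A O) : ContDiffOn ℝ ∞ (side u A O) Aᶜ := by
  intro x hx
  by_cases hxO : x ∈ O
  · have hK := h.notMem hxO hx
    exact (((h.reg.smooth x hK).contDiffAt (h.reg.isClosed.isOpen_compl.mem_nhds hK)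
      ).congr_of_eventuallyEq (h.side_eq hxO)).contDiffWithinAt
  · obtain ⟨c, hc⟩ := h.side_const hx hxO
    exact (contDiffAt_const.congr_of_eventuallyEq hc).contDiffWithinAt

lemma grad_side (h : Lone u K A O) {x : ℂ} (hx : x ∉ A) :
    grad (side u A O) x = O.indicator (grad u) x := by
  by_cases hxO : x ∈ O
  · rw [indicator_of_mem hxO, grad_congr (h.side_eq hxO)]
  · obtain ⟨c, hc⟩ := h.side_const hx hxO
    rw [indicator_of_notMem hxO, grad_congr hc]
    simp [grad, Complex.ext_iff]

/-- The inequality of minimality against the configuration with the part moved. -/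
lemma vary (h : Lone u K A O) {ζ : ℂ → ℝ} (hζ : IsTest univ ζ) {ρ : ℝ}
    (hζ0 : ∀ x, x ∉ closedBall (0 : ℂ) ρ → ζ x = 0) {B : ℝ} (hB : 0 ≤ B)
    (hb : ∀ x, ‖grad ζ x‖ ≤ B) {a : ℂ} (ha : ‖a‖ * B ≤ 1 / 2) :
    IntegrableOn (fun x => pullVal a (grad ζ x) (grad u x)) (ball 0 (ρ + 1) ∩ O) ∧
      0 ≤ ((Measure.hausdorffMeasure 1 (shift a ζ '' (A ∩ ball 0 (ρ + 1)) ∩ O)).toReal -
        (Measure.hausdorffMeasure 1 (A ∩ ball 0 (ρ + 1))).toReal) +
        ((∫ x in ball 0 (ρ + 1) ∩ O, pullVal a (grad ζ x) (grad u x)) -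
        ∫ x in ball 0 (ρ + 1) ∩ O, ‖grad u x‖ ^ 2) := by
  obtain ⟨⟨e, he, hes⟩, hd⟩ := exists_shift_homeomorph hζ.1 hB hb ha
  have hfix : ∀ x, x ∉ closedBall (0 : ℂ) ρ → e x = x := fun x hx => by
    simp [he, shift, hζ0 x hx]
  have hfix' : ∀ x, x ∉ closedBall (0 : ℂ) ρ → e.symm x = x := fun x hx => by
    conv_lhs => rw [← hfix x hx]
    exact e.symm_apply_apply x
  have hin : closedBall (0 : ℂ) ρ ⊆ ball 0 (ρ + 1) := closedBall_subset_ball (by linarith)
  set D := ball (0 : ℂ) (ρ + 1) with hD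
  have hDe : e '' D = D := by
    refine subset_antisymm (image_subset_iff.2 fun x hx => ?_) fun y hy => ?_
    · by_contra hn
      have h1 := hfix (e x) fun h' => hn (hin h')
      exact hn (show e x ∈ D by rw [e.injective h1]; exact hx)
    · refine ⟨e.symm y, ?_, e.apply_symm_apply y⟩
      by_contra hn
      have h1 := hfix (e.symm y) fun h' => hn (hin h')
      rw [e.apply_symm_apply] at h1
      exact hn (h1 ▸ hy)
  have heq : (e : ℂ → ℂ) = shift a ζ := funext he
  have himg : shift a ζ '' D = D := heq ▸ hDe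
  have hinj : InjOn (shift a ζ) D := heq ▸ e.injective.injOn
  have hKn : ∀ᵐ y : ℂ, y ∉ K := measure_eq_zero_iff_ae_notMem.1 h.reg.null
  -- the moved part
  set A' := e '' A with hA'
  have hA'cl : IsClosed A' := e.isClosedMap A h.closed
  have hA'null : (volume : Measure ℂ) A' = 0 := by
    rw [hA', heq]
    exact addHaar_image_eq_zero_of_differentiableOn_of_addHaar_eq_zero _
      (fun x _ => (hd x).differentiableAt.differentiableWithinAt)
      (measure_mono_null h.subset h.reg.null)
  set L := K \ A ∪ A' ∩ O with hL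
  have hLcl : IsClosed L := by
    refine isClosed_of_closure_subset fun y hy => ?_
    rw [hL, closure_union, h.rest.closure_eq] at hy
    rcases hy with hy | hy
    · exact Or.inl hy
    · by_cases hyB : y ∈ K \ A
      · exact Or.inl hyB
      · exact Or.inr ⟨hA'cl.closure_subset (closure_mono inter_subset_left hy),
          h.mem_of_closure (closure_mono inter_subset_right hy) hyB⟩
  have hLnull : (volume : Measure ℂ) L = 0 :=
    measure_union_null (measure_mono_null sdiff_subset h.reg.null)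
      (measure_mono_null inter_subset_left hA'null)
  set q : ℂ → ℝ := fun y => side u A O (e.symm y) with hq
  have hmaps : MapsTo e.symm A'ᶜ Aᶜ := fun y hy hA => hy ⟨_, hA, e.apply_symm_apply y⟩
  have hqs : ContDiffOn ℝ ∞ q A'ᶜ := h.side_smooth.comp hes.contDiffOn hmaps
  classical
  set v : ℂ → ℝ := fun y => if y ∈ O then q y else u y with hv
  have hvO : ∀ y ∈ O, v =ᶠ[𝓝 y] q := fun y hy => by
    filter_upwards [h.isOpen.mem_nhds hy] with z hz
    simp [hv, hz]
  have hvout : ∀ y, y ∉ O → y ∉ K \ A → v =ᶠ[𝓝 y] u := fun y hy hyB => by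
    filter_upwards [isClosed_closure.isOpen_compl.mem_nhds fun hcl => hy (h.mem_of_closure hcl hyB)]
      with z hz
    simp [hv, show z ∉ O from fun hzO => hz (subset_closure hzO)]
  have hvs : ContDiffOn ℝ ∞ v Lᶜ := by
    intro y hy
    have hyB : y ∉ K \ A := fun hB' => hy (Or.inl hB')
    by_cases hyO : y ∈ O
    · have hyA : y ∈ A'ᶜ := fun hA'' => hy (Or.inr ⟨hA'', hyO⟩)
      exact (((hqs y hyA).contDiffAt (hA'cl.isOpen_compl.mem_nhds hyA)).congr_of_eventuallyEq
        (hvO y hyO)).contDiffWithinAt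
    · have hyK : y ∉ K := fun hK => hyB ⟨hK, fun hA'' => hyO (h.inside hA'')⟩
      exact (((h.reg.smooth y hyK).contDiffAt (h.reg.isClosed.isOpen_compl.mem_nhds hyK)
        ).congr_of_eventuallyEq (hvout y hyO hyB)).contDiffWithinAt
  -- the energy
  set b := grad ζ with hbdef
  set X : ℂ → ℂ := O.indicator (grad u) with hX
  have hAx : ∀ x w, (ContinuousLinearMap.id ℝ ℂ + (fderiv ℝ ζ x).smulRight a) w =
      w + dot (b x) w • a := fun x w => by simp [hbdef, fderiv_eq_dot_grad]
  have hdab : ∀ x, |dot a (b x)| ≤ 1 / 2 := fun x =>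
    ((abs_dot_le _ _).trans (mul_le_mul_of_nonneg_left (hb x) (norm_nonneg _))).trans ha
  have hpos : ∀ x, 0 < 1 + dot a (b x) := fun x => by linarith [neg_le_of_abs_le (hdab x)]
  have hgrad : ∀ x, x ∉ A → grad q (e x) = X x - (dot a (X x) / (1 + dot a (b x))) • b x ∧
      (1 + dot a (b x)) * dot (grad q (e x)) (grad q (e x)) = pullVal a (b x) (X x) := by
    intro x hx
    have hex : e x ∈ A'ᶜ := fun ⟨z, hz, hze⟩ => hx (e.injective hze ▸ hz)
    have dq : DifferentiableAt ℝ q (e x) :=
      ((hqs _ hex).contDiffAt (hA'cl.isOpen_compl.mem_nhds hex)).differentiableAt (by simp)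
    have hc : side u A O = q ∘ (shift a ζ) := by
      funext z; simp [hq, ← he]
    refine pull_density (hpos x).ne' fun w => ?_
    have hf : fderiv ℝ (side u A O) x = (fderiv ℝ q (e x)).comp
        (ContinuousLinearMap.id ℝ ℂ + (fderiv ℝ ζ x).smulRight a) := by
      rw [hc, fderiv_comp x (by rw [← he]; exact dq) (hd x).differentiableAt, (hd x).fderiv, ← he]
    have := congrArg (fun T : ℂ →L[ℝ] ℝ => T w) hf
    simp only [ContinuousLinearMap.comp_apply, fderiv_eq_dot_grad, hAx, h.grad_side hx] at this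
    exact this
  have hDm : MeasurableSet D := measurableSet_ball
  have hOm : MeasurableSet O := h.isOpen.measurableSet
  have hXD : MemLp X 2 (volume.restrict D) := (h.reg.memLp _).indicator hOm
  have cb : Continuous b := by
    have := (contDiffOn_grad isOpen_univ hζ.1.contDiffOn).continuousOn
    rwa [continuousOn_univ] at this
  have cdot : Continuous fun p : ℂ × ℂ => dot p.1 p.2 := by unfold dot; fun_prop
  set T : ℂ → ℂ := fun x => X x - (dot a (X x) / (1 + dot a (b x))) • b x
  have hT : MemLp T 2 (volume.restrict D) := by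
    refine hXD.of_le_mul (c := 2) ?_ (Eventually.of_forall fun x => ?_)
    · have hc : AEStronglyMeasurable (fun x => dot a (X x) * (1 + dot a (b x))⁻¹)
          (volume.restrict D) := ?_
      · simp only [T, div_eq_mul_inv]
        exact hXD.1.sub (hc.smul cb.aestronglyMeasurable)
      refine AEStronglyMeasurable.mul ?_ (Continuous.aestronglyMeasurable ?_)
      · exact (cdot.comp (continuous_const.prodMk continuous_id)).comp_aestronglyMeasurable hXD.1
      · exact (continuous_const.add (cdot.comp (continuous_const.prodMk cb))).inv₀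
          fun z => (hpos z).ne'
    · refine (norm_sub_le _ _).trans ?_
      have h1 : ‖(dot a (X x) / (1 + dot a (b x))) • b x‖ ≤ ‖X x‖ := by
        rw [norm_smul, Real.norm_eq_abs, abs_div, abs_of_pos (hpos x), div_mul_eq_mul_div,
          div_le_iff₀ (hpos x)]
        calc |dot a (X x)| * ‖b x‖ ≤ ‖a‖ * ‖X x‖ * B :=
              mul_le_mul (abs_dot_le _ _) (hb x) (norm_nonneg _) (by positivity)
          _ = ‖X x‖ * (‖a‖ * B) := by ring
          _ ≤ ‖X x‖ * (1 + dot a (b x)) :=
              mul_le_mul_of_nonneg_left (by linarith [neg_le_of_abs_le (hdab x)]) (norm_nonneg _)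
      linarith
  have hAn : ∀ᵐ x ∂(volume.restrict D), x ∉ A :=
    ae_restrict_of_ae (hKn.mono fun x hx hxA => hx (h.subset hxA))
  have hae : (fun x => |(ContinuousLinearMap.id ℝ ℂ + (fderiv ℝ ζ x).smulRight a).det| •
      ‖grad q (shift a ζ x)‖ ^ 2) =ᵐ[volume.restrict D] fun x => pullVal a (b x) (X x) := by
    filter_upwards [hAn] with x hx
    rw [det_shift (b x) a (hAx x), abs_of_pos (hpos x), ← he, norm_sq_eq_dot, smul_eq_mul,
      (hgrad x hx).2]
  have hint : IntegrableOn (fun x => pullVal a (b x) (X x)) D := by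
    have hbnd : Integrable (fun x => (1 + dot a (b x)) * ‖T x‖ ^ 2) (volume.restrict D) :=
      hT.norm.integrable_sq.bdd_mul (c := 2) (Continuous.aestronglyMeasurable
        (continuous_const.add (cdot.comp (continuous_const.prodMk cb))))
        (Eventually.of_forall fun x => by
          rw [Real.norm_eq_abs, abs_of_pos (hpos x)]; linarith [le_of_abs_le (hdab x)])
    refine hbnd.congr ?_
    filter_upwards [hAn] with x hx
    rw [← (hgrad x hx).2, (hgrad x hx).1, norm_sq_eq_dot]
  have hind : (fun x => pullVal a (b x) (X x)) =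
      O.indicator fun x => pullVal a (b x) (grad u x) := by
    funext x
    by_cases hx : x ∈ O <;> simp [hX, hx, pullVal, dot]
  have hint' : IntegrableOn (fun x => pullVal a (b x) (grad u x)) (D ∩ O) :=
    (hint.mono_set inter_subset_left).congr_fun (fun x hx => by simp [hX, hx.2])
      (hDm.inter hOm)
  refine ⟨hint', ?_⟩
  have hqi : IntegrableOn (fun y => ‖grad q y‖ ^ 2) D := by
    rw [← himg, integrableOn_image_iff_integrableOn_abs_det_fderiv_smul volume hDm
      (fun x _ => (hd x).hasFDerivWithinAt) hinj]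
    exact hint.congr hae.symm
  have hqq : ∫ y in D, ‖grad q y‖ ^ 2 = ∫ x in D ∩ O, pullVal a (b x) (grad u x) := by
    conv_lhs => rw [← himg]
    rw [integral_image_eq_integral_abs_det_fderiv_smul volume hDm
      (fun x _ => (hd x).hasFDerivWithinAt) hinj, integral_congr_ae hae, hind,
      setIntegral_indicator hOm]
  have hqm : MemLp (grad q) 2 (volume.restrict D) := by
    refine (memLp_two_iff_integrable_sq_norm ?_).2 hqi
    rw [← Measure.restrict_congr_set (sdiff_null_ae_eq_self hA'null)]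
    exact ((contDiffOn_grad hA'cl.isOpen_compl hqs).continuousOn.aestronglyMeasurable
      hA'cl.isOpen_compl.measurableSet).mono_set fun y hy => hy.2
  have hgv : ∀ᵐ y : ℂ, grad v y = O.indicator (grad q) y + Oᶜ.indicator (grad u) y := by
    filter_upwards [hKn] with y hy
    by_cases hyO : y ∈ O
    · simp [hyO, grad_congr (hvO y hyO)]
    · simp [hyO, grad_congr (hvout y hyO fun hB' => hy hB'.1)]
  set δ : ℂ → ℝ := fun y => v y - u y with hδ
  have hδ0 : ∀ y, y ∉ closedBall (0 : ℂ) ρ → δ y = 0 := fun y hy => by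
    by_cases hyO : y ∈ O <;> simp [hδ, hv, hq, hyO, hfix' y hy, side]
  have hgδ0 : ∀ y, y ∉ D → grad δ y = 0 := fun y hy =>
    grad_eq_zero_outside isClosed_closedBall hδ0 fun h' => hy (hin h')
  have hgδ : ∀ᵐ y : ℂ, grad δ y = grad v y - grad u y := by
    filter_upwards [hKn, measure_eq_zero_iff_ae_notMem.1 hLnull] with y hy hy'
    exact grad_sub
      (((hvs y hy').contDiffAt (hLcl.isOpen_compl.mem_nhds hy')).differentiableAt (by simp))
      (((h.reg.smooth y hy).contDiffAt
        (h.reg.isClosed.isOpen_compl.mem_nhds hy)).differentiableAt (by simp))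
  have hvm : MemLp (grad v) 2 (volume.restrict D) :=
    (memLp_congr_ae (ae_restrict_of_ae hgv)).2
      ((hqm.indicator hOm).add ((h.reg.memLp _).indicator hOm.compl))
  have hvi : IntegrableOn (fun y => ‖grad v y‖ ^ 2) D := hvm.norm.integrable_sq
  have hδm : MemLp (grad δ) 2 := by
    have h0 : MemLp (grad δ) 2 (volume.restrict D) :=
      (memLp_congr_ae (ae_restrict_of_ae hgδ)).2 (hvm.sub (h.reg.memLp _))
    have := (memLp_indicator_iff_restrict hDm).2 h0
    rwa [indicator_eq_self.2 fun y hy => by_contra fun hn => hy (hgδ0 y hn)] at this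
  -- separation
  have hsep : KeepsSeparation K L D := by
    intro x y hx hy hn hyL
    refine hn ?_
    have hxK : x ∉ K := fun h' => hx (Or.inr h')
    have hxo : x ∉ closedBall (0 : ℂ) ρ := fun h' => hx (Or.inl (hin h'))
    have hyo : y ∉ closedBall (0 : ℂ) ρ := fun h' => hy (Or.inl (hin h'))
    have hxB : x ∉ K \ A := fun h' => hxK h'.1
    have hxL : x ∈ Lᶜ := by
      rintro (h' | ⟨⟨z, hz, hze⟩, -⟩)
      · exact hxB h'
      · exact hxK (h.subset (by rw [← hfix' x hxo, ← hze, e.symm_apply_apply]; exact hz))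
    have hyB : y ∈ connectedComponentIn (K \ A)ᶜ x :=
      connectedComponentIn_mono x (compl_subset_compl.2 subset_union_left) hyL
    obtain ⟨x₀, hx₀, hO⟩ := h.comp
    by_cases hxO : x ∈ O
    · have hC : connectedComponentIn Lᶜ x ⊆ A'ᶜ := by
        intro w hw hwA
        refine connectedComponentIn_subset _ _ hw (Or.inr ⟨hwA, ?_⟩)
        rw [hO, connectedComponentIn_eq (hO ▸ hxO)]
        exact connectedComponentIn_mono x (compl_subset_compl.2 subset_union_left) hw
      refine h.join hxK ?_ hyB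
      exact (isPreconnected_connectedComponentIn.image e.symm
        e.symm.continuous.continuousOn).subset_connectedComponentIn
        ⟨x, mem_connectedComponentIn hxL, hfix' x hxo⟩
        (by rintro _ ⟨z, hz, rfl⟩; exact hmaps (hC hz)) ⟨y, hyL, hfix' y hyo⟩
    · refine isPreconnected_connectedComponentIn.subset_connectedComponentIn
        (mem_connectedComponentIn (F := (K \ A)ᶜ) hxB) ?_ hyB
      intro w hw hwK
      by_cases hwA : w ∈ A
      · refine hxO ?_
        rw [hO, connectedComponentIn_eq (hO ▸ h.inside hwA : w ∈ connectedComponentIn _ x₀),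
          ← connectedComponentIn_eq hw]
        exact mem_connectedComponentIn hxB
      · exact connectedComponentIn_subset _ _ hw ⟨hwK, hwA⟩
  have hLK : L \ closedBall 0 ρ = K \ closedBall 0 ρ := by
    ext y
    constructor
    · rintro ⟨hy | ⟨⟨z, hz, rfl⟩, -⟩, hy'⟩
      · exact ⟨hy.1, hy'⟩
      · have := hfix' (e z) hy'
        rw [e.symm_apply_apply] at this
        exact ⟨this ▸ h.subset hz, hy'⟩
    · rintro ⟨hy, hy'⟩
      by_cases hA : y ∈ A
      · exact ⟨Or.inr ⟨⟨y, hA, hfix y hy'⟩, h.inside hA⟩, hy'⟩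
      · exact ⟨Or.inl ⟨hy, hA⟩, hy'⟩
  -- lengths
  set m := (Measure.hausdorffMeasure 1 : Measure ℂ)
  have hsplit : m (K ∩ D) = m ((K \ A) ∩ D) + m (A ∩ D) := by
    rw [← measure_union ((disjoint_sdiff_left).mono inter_subset_left inter_subset_left)
      (h.closed.measurableSet.inter hDm), ← union_inter_distrib_right,
      sdiff_union_of_subset h.subset]
  have hKfin : m (K ∩ D) ≠ ⊤ := h.reg.length_ne_top _
  rw [hsplit, ENNReal.add_ne_top] at hKfin
  have hQfin : m (shift a ζ '' (A ∩ D) ∩ O) ≠ ⊤ :=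
    ne_top_of_le_ne_top (shift_length_ne_top hζ a hKfin.2) (measure_mono inter_subset_left)
  have hmL : m (L ∩ D) ≤ m ((K \ A) ∩ D) + m (shift a ζ '' (A ∩ D) ∩ O) := by
    refine (measure_mono ?_).trans (measure_union_le _ _)
    rintro y ⟨hy | ⟨hyA, hyO⟩, hyD⟩
    · exact Or.inl ⟨hy, hyD⟩
    · refine Or.inr ⟨?_, hyO⟩
      rw [← heq, image_inter e.injective, hDe]
      exact ⟨hyA, hyD⟩
  have hsum := ENNReal.add_ne_top.2 ⟨hKfin.1, hQfin⟩
  have key := h.reg.vary L δ ρ hLcl hLnull (hvs.congr fun y _ => by simp [hδ]) hδ0 hLK hsep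
    (ne_top_of_le_ne_top hsum hmL) hδm
  have h1 := ENNReal.toReal_mono hsum hmL
  rw [ENNReal.toReal_add hKfin.1 hQfin] at h1
  rw [hsplit, ENNReal.toReal_add hKfin.1 hKfin.2] at key
  have hcross : Integrable fun y => dot (grad u y) (grad δ y) :=
    h.reg.integrable_dot hδm (r := ρ + 1) hgδ0
  have hui := (h.reg.memLp (ρ + 1)).norm.integrable_sq
  have e1 : (∫ y, ‖grad δ y‖ ^ 2) + 2 * ∫ y, dot (grad u y) (grad δ y) =
      (∫ y in D, ‖grad v y‖ ^ 2) - ∫ y in D, ‖grad u y‖ ^ 2 := by
    rw [← integral_const_mul, ← integral_add hδm.norm.integrable_sq (hcross.const_mul 2),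
      ← integral_sub hvi hui,
      ← setIntegral_eq_integral_of_forall_compl_eq_zero (s := D)
        (fun y hy => by simp [hgδ0 y hy, dot])]
    refine integral_congr_ae ((ae_restrict_of_ae hgδ).mono fun y hy => ?_)
    simp only [hy, norm_sq_eq_dot, dot, Complex.sub_re, Complex.sub_im]
    ring
  have e2 : ∫ y in D, ‖grad v y‖ ^ 2 =
      (∫ y in D ∩ O, ‖grad q y‖ ^ 2) + ∫ y in D ∩ Oᶜ, ‖grad u y‖ ^ 2 := by
    rw [← setIntegral_indicator hOm, ← setIntegral_indicator hOm.compl,
      ← integral_add (hqi.indicator hOm) (Integrable.indicator hui hOm.compl)]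
    refine integral_congr_ae ((ae_restrict_of_ae hgv).mono fun y hy => ?_)
    by_cases hyO : y ∈ O <;> simp [hy, hyO]
  have e3 : ∫ y in D, ‖grad u y‖ ^ 2 =
      (∫ y in D ∩ O, ‖grad u y‖ ^ 2) + ∫ y in D ∩ Oᶜ, ‖grad u y‖ ^ 2 := by
    rw [← integral_inter_add_sdiff hOm hui, Set.sdiff_eq]
  have e4 : ∫ y in D ∩ O, ‖grad q y‖ ^ 2 ≤ ∫ y in D, ‖grad q y‖ ^ 2 :=
    setIntegral_mono_set hqi (Eventually.of_forall fun y => by positivity)
      (LE.le.eventuallyLE (inter_subset_left : _ ∩ _ ≤ _))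
  linarith

end Lone

/-- **Translation lemma.** If the field vanishes in every region touching both `A` and the rest,
then the component of the complement of the rest containing `A` is dense. -/
theorem translateGoal : TranslateGoal := by
  intro u K A x₀ hu hd hred hP hAK hA hB hAp hx₀ hflat
  set O := connectedComponentIn (K \ A)ᶜ x₀ with hO
  have hsub : A ⊆ O :=
    hAp.subset_connectedComponentIn hx₀ fun y hy hy' => hy'.2 hy
  have h : Lone u K A O := ⟨hu, hA, hB, hAK, ⟨x₀, hx₀, rfl⟩, hsub,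
    fun x hx h₁ h₂ => hflat x hx h₁ h₂ x (mem_connectedComponentIn hx)⟩
  intro z
  by_contra hz
  obtain ⟨r₁, hr₁, hball⟩ := Metric.isOpen_iff.1 isClosed_closure.isOpen_compl z hz
  obtain ⟨r₂, hr₂, hfree⟩ := Metric.isOpen_iff.1 hB.isOpen_compl x₀ fun h' => h'.2 hx₀
  set r := min r₁ r₂
  have hr : 0 < r := lt_min hr₁ hr₂
  set a := z - x₀ with ha
  set m := (Measure.hausdorffMeasure 1 : Measure ℂ)
  set S₀ := A ∩ ball x₀ r with hS₀
  have hS₀K : S₀ = K ∩ ball x₀ r := by
    refine subset_antisymm (inter_subset_inter_left _ hAK) fun y hy => ⟨?_, hy.2⟩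
    by_contra hyA
    exact hfree (ball_subset_ball (min_le_right _ _) hy.2) ⟨hy.1, hyA⟩
  obtain ⟨Dc, hDc0, hDc⟩ := exists_layerCut_bound
  set C₀ : ℝ := 30 * Real.pi * (‖a‖ ^ 2 * Dc ^ 2)
  -- the saving is at most `C₀` over the radius
  have main : ∀ k, ‖x₀‖ + r ≤ 3 / 4 * rad k → 2 * (‖a‖ * Dc) ≤ rad k →
      (m S₀).toReal ≤ C₀ / rad k := by
    intro k hk1 hk2
    set R := rad k
    have hR : (1 : ℝ) ≤ R := one_le_pow₀ (by norm_num)
    set ζ := layerCut k
    have hζ : IsTest univ ζ := (isTest_layerCut k).mono (subset_univ _)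
    have hζ0 : ∀ x, x ∉ closedBall (0 : ℂ) (2 * R) → ζ x = 0 := fun x hx =>
      image_eq_zero_of_notMem_tsupport fun h' =>
        hx (closedBall_subset_closedBall (by linarith) (layerCut_supp k h'))
    set B := Dc / R with hBd
    have hB0 : 0 ≤ B := by positivity
    have haB : ‖a‖ * B ≤ 1 / 2 := by
      rw [hBd, mul_div_assoc', div_le_iff₀ (by linarith)]
      linarith
    obtain ⟨i1, v1⟩ := h.vary hζ hζ0 hB0 (hDc k) haB
    obtain ⟨i2, v2⟩ := h.vary hζ hζ0 hB0 (hDc k) (a := -a) (by rwa [norm_neg])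
    set D := ball (0 : ℂ) (2 * R + 1)
    set S := A ∩ D
    have hSm : MeasurableSet S := hA.measurableSet.inter measurableSet_ball
    have hSK : S ⊆ K ∩ D := inter_subset_inter_left _ hAK
    have hSfin : m S ≠ ⊤ := ne_top_of_le_ne_top (hu.length_ne_top _) (measure_mono hSK)
    have hlen := length_pair ((hP _).mono hSm hSK) hSfin hζ hB0 (hDc k) a
    have hS_le : (m S).toReal ≤ 2 * Real.pi * (2 * R + 1) :=
      ENNReal.toReal_le_of_le_ofReal (by positivity)
        ((measure_mono hSK).trans (hd 0 _ (by linarith)).1)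
    have hne' : ∀ c, m (shift c ζ '' S) ≠ ⊤ := fun c => shift_length_ne_top hζ c hSfin
    -- the part which leaves `O`
    have himg : (fun y => a + y) '' S₀ ⊆ shift a ζ '' S \ O := by
      rintro _ ⟨y, hy, rfl⟩
      have hyR : ‖y‖ ≤ 3 / 4 * R := by
        have := mem_ball_iff_norm.1 hy.2
        have := norm_le_norm_add_norm_sub' y x₀
        linarith
      refine ⟨⟨y, ⟨hy.1, mem_ball_zero_iff.2 (by linarith)⟩, ?_⟩, fun hO' => ?_⟩
      · simp only [shift, ζ, layerCut_eq_one hyR, one_smul]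
        exact add_comm y a
      · refine hball ?_ (subset_closure hO')
        rw [mem_ball_iff_norm, ha, show z - x₀ + y - z = y - x₀ by ring]
        exact (mem_ball_iff_norm.1 hy.2).trans_le (min_le_left _ _)
    have hiso : m ((fun y => a + y) '' S₀) = m S₀ := by
      rw [show (fun y : ℂ => a + y) = ⇑(IsometryEquiv.addLeft a) from rfl]
      exact (IsometryEquiv.addLeft a).hausdorffMeasure_image 1 S₀
    have hP1 := measure_inter_add_sdiff (μ := m) (shift a ζ '' S) h.isOpen.measurableSet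
    have hQ1 : m (shift a ζ '' S ∩ O) ≠ ⊤ :=
      ne_top_of_le_ne_top (hne' a) (measure_mono inter_subset_left)
    have hQ2 : m (shift a ζ '' S \ O) ≠ ⊤ :=
      ne_top_of_le_ne_top (hne' a) (measure_mono sdiff_subset)
    have hP2 := congrArg ENNReal.toReal hP1
    rw [ENNReal.toReal_add hQ1 hQ2] at hP2
    have hs0 : (m S₀).toReal ≤ (m (shift a ζ '' S \ O)).toReal :=
      ENNReal.toReal_mono hQ2 (hiso ▸ measure_mono himg)
    have hN : (m (shift (-a) ζ '' S ∩ O)).toReal ≤ (m (shift (-a) ζ '' S)).toReal :=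
      ENNReal.toReal_mono (hne' _) (measure_mono inter_subset_left)
    -- the energy
    have gG : IntegrableOn (fun x => ‖grad u x‖ ^ 2) (D ∩ O) :=
      IntegrableOn.mono_set (hu.memLp _).norm.integrable_sq inter_subset_left
    have hpair : (∫ x in D ∩ O, pullVal a (grad ζ x) (grad u x)) +
        (∫ x in D ∩ O, pullVal (-a) (grad ζ x) (grad u x)) ≤
        (2 + 4 * ‖a‖ ^ 2 * B ^ 2) * ∫ x in D ∩ O, ‖grad u x‖ ^ 2 := by
      rw [← integral_add i1 i2, ← integral_const_mul]
      refine integral_mono (i1.add i2) (gG.const_mul _) fun x => ?_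
      rw [norm_sq_eq_dot (grad u x), add_mul]
      exact pullVal_pair (hDc k x) haB
    have hE : ∫ x in D ∩ O, ‖grad u x‖ ^ 2 ≤ 2 * Real.pi * (2 * R + 1) :=
      (setIntegral_mono_set (hu.memLp _).norm.integrable_sq
        (Eventually.of_forall fun y => by positivity)
        (LE.le.eventuallyLE (inter_subset_left : _ ∩ _ ≤ _))).trans (hd 0 _ (by linarith)).2
    have hab : 0 ≤ ‖a‖ ^ 2 * B ^ 2 := by positivity
    have f1 := mul_le_mul_of_nonneg_left hS_le hab
    have f2 := mul_le_mul_of_nonneg_left hE hab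
    have f3 : (m S₀).toReal ≤ 5 * (‖a‖ ^ 2 * B ^ 2) * (2 * Real.pi * (2 * R + 1)) := by
      linarith
    refine f3.trans ?_
    rw [hBd, div_pow]
    have hR0 : 0 < R := by linarith
    rw [le_div_iff₀ hR0]
    field_simp
    have : 0 ≤ Real.pi * (‖a‖ ^ 2 * Dc ^ 2) := by positivity
    nlinarith [mul_nonneg this (sub_nonneg.2 hR)]
  have hrad : Tendsto rad atTop atTop := tendsto_pow_atTop_atTop_of_one_lt (by norm_num)
  have hle : (m S₀).toReal ≤ 0 := by
    refine ge_of_tendsto ((tendsto_const_nhds (x := C₀)).div_atTop hrad) ?_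
    filter_upwards [hrad.eventually_ge_atTop (4 / 3 * (‖x₀‖ + r)),
      hrad.eventually_ge_atTop (2 * (‖a‖ * Dc))] with k h1 h2
    exact main k (by linarith) h2
  have hposm : 0 < m S₀ := hS₀K ▸ hred x₀ (hAK hx₀) r hr
  have hfin : m S₀ ≠ ⊤ := by
    refine ne_top_of_le_ne_top (hu.length_ne_top (‖x₀‖ + r)) (measure_mono ?_)
    rw [hS₀K]
    exact inter_subset_inter_right _ (ball_subset_ball' (by simp [dist_eq_norm]; linarith))
  exact hle.not_gt (ENNReal.toReal_pos hposm.ne' hfin)

end Vale.Agent.P128.Connected
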