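import Vale.Agent.P128.Connected.Main
import Vale.Agent.P128.Connected.Separating.DoubleZero
import Vale.Agent.P128.Connected.Separating.Main
import Vale.Agent.P128.Connected.Separating.Rigid
import Vale.Agent.P128.Connected.Separating.Translate

/-!
# Every reduced global minimiser has a connected singular set: all modules together
-/

namespace Vale.Agent.P128.Connected

open Islands

/-- Every component of the singular set is unbounded and there are at most twelve. -/
theorem unboundedGoal : UnboundedComponentsGoal :=
  unboundedComponents_of splitGoal (islandGoal_of projectionGoal separationGoal lengthGoal)
    (countGoal lengthGoal)

/-- The singular set of every reduced global minimiser is connected. -/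
theorem allConnectedGoal : AllConnectedGoal :=
  allConnected_of weylGoal lengthGoal unboundedGoal (densityGoal lengthGoal) coverGoal continuumGoal
    curvePiecesGoal piecesUnionGoal potentialGoal curveConstantGoal traceGoal layersGoal
    (rigidGoal weylGoal limitGoal (gainGoal identityGoal crossGoal secondVarGoal) offCriticalGoal)
    removableGoal doubleZeroGoal translateGoal

end Vale.Agent.P128.Connected
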