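import Vale.Agent.P128.Connected.Interface

/-!
# Connectedness of the singular set with no assumption on the complement: module statements

Take two components. Where a component of the complement touches two parts of `K` the gradient is
constant (rigidity) and then zero (strip argument). Translating one part `A` in a large disk then
shows that `K \ A` does not disconnect the plane. So no part does, the complement is connected
with zero gradient, and `K` is removable.
-/

namespace Vale.Agent.P128.Connected

open MeasureTheory Filter Metric Set Islands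
open scoped Topology ENNReal NNReal ContDiff

/-- The gradient is constant on a component of the complement touching both parts of `K`. -/
def RigidGoal : Prop :=
  ∀ (u : ℂ → ℝ) (K K₁ K₂ : Set ℂ) (χ : ℂ → ℝ) (C : ℝ) (S P : ℕ → ℂ → ℂ),
    Split u K K₁ K₂ χ → IsReduced K → (∀ R, ConePieces (K ∩ ball 0 R)) →
    Layers u K K₁ K₂ C S P →
    ∀ z ∉ K, (closure (connectedComponentIn Kᶜ z) ∩ K₁).Nonempty →
      (closure (connectedComponentIn Kᶜ z) ∩ K₂).Nonempty →
      ∀ y ∈ connectedComponentIn Kᶜ z, grad u y = grad u z

/-- Where the gradient is constant every point of `K` touches another component of the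
complement. -/
def RemovableGoal : Prop :=
  ∀ (u : ℂ → ℝ) (K : Set ℂ) (q z : ℂ), Reg u K → IsReduced K → z ∉ K →
    (∀ y ∈ connectedComponentIn Kᶜ z, grad u y = q) →
    ∀ x ∈ K, ∀ r > (0 : ℝ), ∃ y ∈ ball x r, y ∉ K ∧ y ∉ connectedComponentIn Kᶜ z

/-- A constant gradient vanishes: the component would be a strip or a half plane. -/
def DoubleZeroGoal : Prop :=
  ∀ (u : ℂ → ℝ) (K : Set ℂ) (q z : ℂ), Reg u K → HasDensityBound u K → IsReduced K → z ∉ K →
    K.Nonempty → (∀ y ∈ connectedComponentIn Kᶜ z, grad u y = q) → q = 0

/-- If `u` is constant on the components of the complement touching both `A` and `K \ A`, then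
translating `A` shows that the component of the complement of `K \ A` containing `A` is dense. -/
def TranslateGoal : Prop :=
  ∀ (u : ℂ → ℝ) (K A : Set ℂ) (a : ℂ), Reg u K → HasDensityBound u K → IsReduced K →
    (∀ R, ConePieces (K ∩ ball 0 R)) → A ⊆ K → IsClosed A → IsClosed (K \ A) →
    IsPreconnected A → a ∈ A →
    (∀ z ∉ K, (closure (connectedComponentIn Kᶜ z) ∩ A).Nonempty →
      (closure (connectedComponentIn Kᶜ z) ∩ (K \ A)).Nonempty →
      ∀ y ∈ connectedComponentIn Kᶜ z, grad u y = 0) →
    Dense (connectedComponentIn (K \ A)ᶜ a)

/-- Every reduced global minimiser has a connected singular set. -/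
def AllConnectedGoal : Prop :=
  ∀ (u : ℂ → ℝ) (G : ℂ → ℂ) (K : Set ℂ), IsGlobalMinimizer u G K → IsReduced K →
    IsPreconnected K

end Vale.Agent.P128.Connected
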